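import Vale.Agent.P225.Stage.BlockAux

/-!
P225, module E: the normalised map of one stage on a finite family of blocks lies in the target
group and is close to the word of exponentials.
-/

noncomputable section

namespace Vale.Agent.P225

open Set NormedSpace Matrix SU2
open scoped ComplexOrder Kronecker Matrix.Norms.L2Operator

/-- The scalar making the determinant one. -/
def detScale (p : ℕ × ℕ) (M : BlkMat p) : ℝ :=
  (M.det.re) ^ (-(1 / (((p.1 : ℝ) + 1) * ((p.2 : ℝ) + 1))))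

/-- Normalise the determinant of every block to one. -/
def normBlk {β : Finset (ℕ × ℕ)} (M : BlkAlg β) : BlkAlg β :=
  fun p => detScale p.1 (M p) • M p

/-- A product of block matrices is real if the factors are. -/
theorem isRealBlk_mul {p : ℕ × ℕ} {M N : BlkMat p} (hM : IsRealBlk p M) (hN : IsRealBlk p N) :
    IsRealBlk p (M * N) :=
  BlockAux.isRealBlk_mul' hM hN

theorem contDiffOn_normBlk {β : Finset (ℕ × ℕ)} :
    ContDiffOn ℝ 1 (normBlk (β := β)) {M | ∀ p, 0 < (M p).det.re} := by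
  intro M hM
  refine (contDiffAt_pi.2 fun p => ?_).contDiffWithinAt
  have hd : ContDiffAt ℝ 1 (fun M : BlkAlg β => (M p).det.re) M :=
    Complex.reCLM.contDiff.contDiffAt.comp M
      (BlockAux.contDiff_det.contDiffAt.comp M
        (ContinuousLinearMap.proj (R := ℝ) (φ := fun q : β => BlkMat q.1) p).contDiff.contDiffAt)
  exact (hd.rpow_const_of_ne (hM p).ne').smul
    (ContinuousLinearMap.proj (R := ℝ) (φ := fun q : β => BlkMat q.1) p).contDiff.contDiffAt

theorem normBlk_continuousOn {β : Finset (ℕ × ℕ)} :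
    ContinuousOn (normBlk (β := β)) {M | ∀ p, 0 < (M p).det.re} :=
  contDiffOn_normBlk.continuousOn

/-- A block of determinant one is not changed. -/
theorem detScale_smul_of_det_one {p : ℕ × ℕ} {M : BlkMat p} (h : M.det = 1) :
    detScale p M • M = M := by
  rw [detScale, h, Complex.one_re, Real.one_rpow, one_smul]

/-- A normalised real block with positive determinant has determinant one. -/
theorem det_detScale_smul {p : ℕ × ℕ} {M : BlkMat p} (h0 : M.det.im = 0) (h : 0 < M.det.re) :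
    (detScale p M • M).det = 1 := by
  have hd : M.det = (M.det.re : ℂ) := Complex.ext rfl (by simp [h0])
  rw [← Complex.coe_smul, Matrix.det_smul]
  conv_lhs => rw [hd]
  rw [← Complex.ofReal_pow, ← Complex.ofReal_mul, detScale, ← Real.rpow_natCast,
    ← Real.rpow_mul h.le]
  simp only [Fintype.card_prod, Fintype.card_fin, Nat.cast_mul, Nat.cast_add, Nat.cast_one]
  rw [neg_mul, div_mul_cancel₀ _ (by positivity), Real.rpow_neg_one, inv_mul_cancel₀ h.ne',
    Complex.ofReal_one]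

/-- A stage on every block of `β`: control on `[a, a + m / ε]`, then the free coefficient up to
`b`; everything commutes with the real structure and is scalar on trivial blocks. -/
structure IsBlkStage {β : Finset (ℕ × ℕ)} {m : ℕ} (φ : ℝ → ℝ) (i : Fin m → Fin 3 × Fin 3)
    (x : Fin m → ℝ) (αs : ℕ × ℕ → ℝ) (νs C ε η a b : ℝ)
    (A A0 W V Q R : ∀ p : β, ℝ → BlkMat p.1) (ν : ℝ → ℝ) (α : β → ℝ → ℝ) : Prop where
  le : a + m / ε ≤ b
  ctrl : ∀ p : β, IsCtrlStage φ (fun k => opS p.1 (i k).1 * opT p.1 (i k).2) x C ε η (αs p.1) νs a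
    (A p) (A0 p) (W p) (V p) (Q p) (R p) ν (α p)
  free : ∀ p : β, ∀ t ∈ Icc (a + m / ε) b, A p t = A0 p t
  riccW : ∀ p : β, IsRiccati (A p) ν (W p) a b
  riccV : ∀ p : β, IsRiccati (A0 p) ν (V p) a b
  posW : ∀ p : β, ∀ t ∈ Icc a b, (W p t).PosSemidef
  posV : ∀ p : β, ∀ t ∈ Icc a b, (V p t).PosSemidef
  backQ : ∀ p : β, IsBack (W p) (Q p) a b
  backR : ∀ p : β, IsBack (V p) (R p) a b
  contν : ContinuousOn ν (Icc a b)
  contA : ∀ p : β, ContinuousOn (A p) (Icc a b)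
  lowν : ∀ t ∈ Icc a b, νs / 2 ≤ ν t
  realA : ∀ p : β, ∀ t ∈ Icc a b, IsRealBlk p.1 (A p t) ∧ IsRealBlk p.1 (A0 p t)
  realStart : ∀ p : β, IsRealBlk p.1 (V p a)
  trivA : ∀ p : β, p.1.1 = 0 ∨ p.1.2 = 0 → ∀ t ∈ Icc a b,
    (∃ μ : ℝ, A p t = (μ : ℂ) • 1) ∧ ∃ μ : ℝ, A0 p t = (μ : ℂ) • 1
  trivStart : ∀ p : β, p.1.1 = 0 ∨ p.1.2 = 0 → ∃ μ : ℝ, V p a = (μ : ℂ) • 1

/-- The weights of a product point. -/
def stageWeight (αs : ℕ × ℕ → ℝ) (νs : ℝ) (p : ℕ × ℕ) : ℝ := (2 * αs p + νs)⁻¹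

section

variable {β : Finset (ℕ × ℕ)} {m : ℕ} {φ : ℝ → ℝ} {i : Fin m → Fin 3 × Fin 3} {x : Fin m → ℝ}
  {αs : ℕ × ℕ → ℝ} {νs C ε η a b : ℝ} {A A0 W V Q R : ∀ p : β, ℝ → BlkMat p.1} {ν : ℝ → ℝ}
  {α : β → ℝ → ℝ} (hS : IsBlkStage φ i x αs νs C ε η a b A A0 W V Q R ν α)

include hS

theorem IsBlkStage.contW (p : β) : ContinuousOn (W p) (Icc a b) := fun t ht =>
  (hS.riccW p t ht).continuousAt.continuousWithinAt

theorem IsBlkStage.contV (p : β) : ContinuousOn (V p) (Icc a b) := fun t ht =>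
  (hS.riccV p t ht).continuousAt.continuousWithinAt

/-- One block of a stage, given the limit for its control interval. -/
theorem IsBlkStage.block_est (p : β) (hε : 0 < ε) (hεη : ε ≤ η) (hνs : 0 < νs) (hη1 : η ≤ 1)
    (hCη : C * η ≤ 1 / 4) {C₁ C₂ Kb : ℝ} (hC₁ : C₁ ≤ C₂) (hC₂ : 0 < C₂) (hKb : 0 < Kb)
    (h1 : ‖W p (a + m / ε) - V p (a + m / ε)‖ ≤ C₁ * ε)
    (h2 : ‖Q p (a + m / ε) * (R p (a + m / ε))⁻¹ -
      (List.ofFn fun k => exp ((-(x k) / (2 * αs p.1 + νs)) •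
        (opS p.1 (i k).1 * opT p.1 (i k).2))).prod‖ ≤ C₁ * η)
    (hTn : ‖ctrlWord β (stageWeight αs νs) i (-x) p‖ ≤ Kb) :
    ‖Q p b * (R p b)⁻¹ - ctrlWord β (stageWeight αs νs) i (-x) p‖ ≤
        (C₂ + (C₂ + Kb) * (4 * (C₂ / (νs / 2)))) * η ∧
      ‖W p b - V p b‖ ≤ C₂ * ε * Real.exp (-(νs / 2) * (b - (a + m / ε))) := by
  have hη : 0 < η := hε.trans_le hεη
  have hac : a ≤ a + (m : ℝ) / ε := le_add_of_nonneg_right (by positivity)
  have hcb := hS.le
  set c := a + (m : ℝ) / ε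
  have hκ : 0 < νs / 2 := by positivity
  obtain ⟨h4, h5⟩ := BlockAux.interaction_le hac hcb hκ
    (fun t ht => hS.lowν t ⟨hac.trans ht.1, ht.2⟩)
    (hS.contν.mono (Icc_subset_Icc hac le_rfl)) (A := A0 p)
    (fun t ht => by
      have h6 := hS.riccW p t ⟨hac.trans ht.1, ht.2⟩
      rwa [hS.free p t ht] at h6)
    (fun t ht => hS.riccV p t ⟨hac.trans ht.1, ht.2⟩) (hS.contW p) (hS.contV p)
    (fun t ht => hS.posW p t ⟨hac.trans ht.1, ht.2⟩)
    (fun t ht => hS.posV p t ⟨hac.trans ht.1, ht.2⟩)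
    (hS.backQ p) (hS.backR p) (hS.ctrl p).hα (hS.ctrl p).nearα hCη
  have hjump : ‖W p c - V p c‖ ≤ C₂ * ε := h1.trans (mul_le_mul_of_nonneg_right hC₁ hε.le)
  set T := ctrlWord β (stageWeight αs νs) i (-x) p with hT
  have hw : (List.ofFn fun k => exp ((-(x k) / (2 * αs p.1 + νs)) •
      (opS p.1 (i k).1 * opT p.1 (i k).2))).prod = T := by
    rw [hT, BlockAux.ctrlWord_apply]
    simp only [stageWeight, Pi.neg_apply, div_eq_mul_inv]
  rw [hw] at h2
  have hP : ‖Q p c * (R p c)⁻¹‖ ≤ C₂ + Kb := by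
    have h7 := norm_add_le (Q p c * (R p c)⁻¹ - T) T
    rw [sub_add_cancel] at h7
    have h8 : C₁ * η ≤ C₂ := by nlinarith
    linarith
  refine ⟨?_, h4.trans ((mul_le_mul_of_nonneg_left hjump (Real.exp_nonneg _)).trans_eq (by ring))⟩
  calc ‖Q p b * (R p b)⁻¹ - T‖
      ≤ ‖Q p b * (R p b)⁻¹ - Q p c * (R p c)⁻¹‖ + ‖Q p c * (R p c)⁻¹ - T‖ :=
        norm_sub_le_norm_sub_add_norm_sub _ _ _
    _ ≤ (C₂ + Kb) * (4 * (C₂ * ε / (νs / 2))) + C₁ * η := by
        refine add_le_add (h5.trans (mul_le_mul hP ?_ (by positivity) (by linarith))) h2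
        exact mul_le_mul_of_nonneg_left (div_le_div_of_nonneg_right hjump hκ.le) (by norm_num)
    _ ≤ (C₂ + Kb) * (4 * (C₂ * η / (νs / 2))) + C₂ * η :=
        add_le_add (mul_le_mul_of_nonneg_left (mul_le_mul_of_nonneg_left
          (div_le_div_of_nonneg_right (mul_le_mul_of_nonneg_left hεη hC₂.le) hκ.le) (by norm_num))
          (by linarith)) (mul_le_mul_of_nonneg_right hC₁ hη.le)
    _ = _ := by ring

/-- The interaction maps are real. -/
theorem IsBlkStage.block_real (p : β) (hab : a ≤ b) :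
    IsRealBlk p.1 (Q p b * (R p b)⁻¹) := by
  have hVa := hS.realStart p
  have hWa : IsRealBlk p.1 (W p a) := (hS.ctrl p).start ▸ hVa
  rw [BlockAux.isRealBlk_iff] at hVa hWa
  have hWφ := riccati_map_eq (BlockAux.realHom p.1) hS.contν (hS.riccW p)
    (fun t ht => (BlockAux.isRealBlk_iff _).1 (hS.realA p t ht).1) hWa
  have hVφ := riccati_map_eq (BlockAux.realHom p.1) hS.contν (hS.riccV p)
    (fun t ht => (BlockAux.isRealBlk_iff _).1 (hS.realA p t ht).2) hVa
  have hb : b ∈ Icc a b := right_mem_Icc.2 hab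
  exact isRealBlk_mul
    ((BlockAux.isRealBlk_iff _).2 (back_map_eq _ (hS.contW p) (hS.backQ p) hWφ b hb))
    (BlockAux.isRealBlk_inv (back_isUnit (hS.contV p) (hS.backR p) b hb)
      ((BlockAux.isRealBlk_iff _).2 (back_map_eq _ (hS.contV p) (hS.backR p) hVφ b hb)))

/-- On trivial blocks the normalised map is one. -/
theorem IsBlkStage.block_triv (p : β) (hab : a ≤ b) (hp : p.1.1 = 0 ∨ p.1.2 = 0)
    (hnear : ‖Q p b * (R p b)⁻¹ - 1‖ ≤ 1 / 2) :
    detScale p.1 (Q p b * (R p b)⁻¹) • (Q p b * (R p b)⁻¹) = 1 := by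
  set N := Q p b * (R p b)⁻¹
  have hb : b ∈ Icc a b := right_mem_Icc.2 hab
  have hcom : ∀ X : BlkMat p.1, Commute X N := by
    intro X
    obtain ⟨μ, hμ⟩ := hS.trivStart p hp
    have hW0 : Commute X (W p a) := by
      rw [(hS.ctrl p).start, hμ]; exact BlockAux.commute_smul_one _ _
    have hV0 : Commute X (V p a) := by rw [hμ]; exact BlockAux.commute_smul_one _ _
    have hWX := riccati_commute hS.contν (hS.riccW p) (M := X) (fun t ht => by
      obtain ⟨μ, h⟩ := (hS.trivA p hp t ht).1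
      rw [h]; exact BlockAux.commute_smul_one _ _) hW0
    have hVX := riccati_commute hS.contν (hS.riccV p) (M := X) (fun t ht => by
      obtain ⟨μ, h⟩ := (hS.trivA p hp t ht).2
      rw [h]; exact BlockAux.commute_smul_one _ _) hV0
    refine (BlockAux.back_commute (hS.contW p) (hS.backQ p) hWX b hb).mul_right ?_
    have hu := (Matrix.isUnit_iff_isUnit_det _).1 (back_isUnit (hS.contV p) (hS.backR p) b hb)
    have hR := BlockAux.back_commute (hS.contV p) (hS.backR p) hVX b hb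
    show X * (R p b)⁻¹ = (R p b)⁻¹ * X
    calc X * (R p b)⁻¹ = (R p b)⁻¹ * R p b * X * (R p b)⁻¹ := by
          rw [Matrix.nonsing_inv_mul _ hu, one_mul]
      _ = (R p b)⁻¹ * X * (R p b * (R p b)⁻¹) := by
          rw [mul_assoc (R p b)⁻¹ (R p b) X, ← hR.eq]; simp only [mul_assoc]
      _ = _ := by rw [Matrix.mul_nonsing_inv _ hu, mul_one]
  obtain ⟨z, hz⟩ := BlockAux.exists_eq_smul_one hcom
  have hzim : z.im = 0 := by
    have h := (BlockAux.isRealBlk_iff _).1 (hS.block_real p hab)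
    rw [show Q p b * (R p b)⁻¹ = z • (1 : BlkMat p.1) from hz] at h
    have h2 : (BlockAux.realHom p.1) (z • (1 : BlkMat p.1)) = star z • (1 : BlkMat p.1) := by
      show BlockAux.jMat p.1 * (z • (1 : BlkMat p.1)).map star * _ = _
      rw [show (z • (1 : BlkMat p.1)).map star = star z • (1 : BlkMat p.1) by
        ext u v; rcases eq_or_ne u v with rfl | huv <;> simp [*],
        mul_smul_comm, mul_one, smul_mul_assoc,
        Matrix.mul_nonsing_inv _ (BlockAux.isUnit_det_jMat p.1)]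
    rw [h2] at h
    exact Complex.conj_eq_iff_im.1 (by simpa using congrFun (congrFun h 0) 0)
  have hzre : 0 < z.re := by
    have h1 := hnear
    rw [hz, show z • (1 : BlkMat p.1) - 1 = (z - 1) • 1 by rw [sub_smul, one_smul], norm_smul,
      norm_one, mul_one] at h1
    have h2 := (Complex.abs_re_le_norm (z - 1)).trans h1
    rw [abs_le, Complex.sub_re, Complex.one_re] at h2
    linarith [h2.1]
  have hz' : z = (z.re : ℂ) := Complex.ext rfl (by simp [hzim])
  rw [hz, detScale, Matrix.det_smul, Matrix.det_one, mul_one, hz', ← Complex.ofReal_pow,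
    Complex.ofReal_re, ← Real.rpow_natCast, ← Real.rpow_mul hzre.le]
  simp only [Fintype.card_prod, Fintype.card_fin, Nat.cast_mul, Nat.cast_add, Nat.cast_one]
  rw [mul_neg, mul_one_div, div_self (by positivity), Real.rpow_neg_one, Complex.coe_smul,
    smul_smul, inv_mul_cancel₀ hzre.ne', one_smul]

end

/-- The normalised stage map is a target close to the word with amplitudes `-x`. -/
theorem blkStage_near {β : Finset (ℕ × ℕ)} {m : ℕ} (φ : ℝ → ℝ) (hφ : ContDiff ℝ 1 φ)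
    (hsupp : ∀ s, s ∉ Ioo (0 : ℝ) 1 → φ s = 0) (hint : ∫ s in (0 : ℝ)..1, φ s = 1)
    (i : Fin m → Fin 3 × Fin 3) {αs : ℕ × ℕ → ℝ} (hαs : ∀ p ∈ β, 0 ≤ αs p) {νs : ℝ}
    (hνs : 0 < νs) (C M : ℝ) :
    ∃ C' ε0 : ℝ, 0 < ε0 ∧ ∀ (x : Fin m → ℝ) (ε η a b : ℝ)
      (A A0 W V Q R : ∀ p : β, ℝ → BlkMat p.1) (ν : ℝ → ℝ) (α : β → ℝ → ℝ),
      0 < ε → ε ≤ η → η ≤ ε0 → ‖x‖ ≤ M → IsBlkStage φ i x αs νs C ε η a b A A0 W V Q R ν α →
        (∀ p : β, 0 < (Q p b * (R p b)⁻¹).det.re) ∧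
        IsTarget (normBlk fun p : β => Q p b * (R p b)⁻¹) ∧
        ‖(normBlk fun p : β => Q p b * (R p b)⁻¹) -
          ctrlWord β (stageWeight αs νs) i (-x)‖ ≤ C' * η ∧
        (∀ p : β, |Real.log (detScale p.1 (Q p b * (R p b)⁻¹))| ≤ 1) ∧
        ∀ p : β, ‖W p b - V p b‖ ≤ C' * ε * Real.exp (-(νs / 2) * (b - (a + m / ε))) := by
  classical
  -- the regularity of the normalisation near the words
  let K : Set (BlkAlg β) :=
    (fun x => ctrlWord β (stageWeight αs νs) i (-x)) '' Metric.closedBall 0 M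
  have hK : IsCompact K := (isCompact_closedBall _ _).image
    ((BlockAux.ctrlWord_continuous β _ i).comp continuous_neg)
  let U : Set (BlkAlg β) := {T | ∀ p, (T p).det.re ∈ Ioo (1 / 2) 2}
  have hU : IsOpen U := by
    simp only [U, Set.ofPred_forall]
    exact isOpen_iInter_of_finite fun p => isOpen_Ioo.preimage
      (Complex.continuous_re.comp (BlockAux.contDiff_det.continuous.comp (continuous_apply p)))
  have hKU : K ⊆ U := by
    rintro _ ⟨x, -, rfl⟩ p
    rw [(ctrlWord_isTarget β _ i (-x) p).2.1]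
    exact ⟨by norm_num, by norm_num⟩
  obtain ⟨r, L, hr, hL, hlip⟩ :=
    BlockAux.exists_lip_near (E := BlkAlg β) (F := BlkAlg β) hU
      (contDiffOn_normBlk.mono fun T hT p => (one_half_pos (α := ℝ)).trans (hT p).1) hK hKU
  obtain ⟨Kn, hKn⟩ := hK.isBounded.exists_norm_le
  set Kb := max Kn 0 + 1
  -- the stage limit on each block
  have hlim := fun p : β => stage_limit (n := Fin (p.1.1 + 1) × Fin (p.1.2 + 1)) φ hφ hsupp hint
    (fun k => opS p.1 (i k).1 * opT p.1 (i k).2)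
    (fun k => BlockAux.gen_mul_hermitian _ _ _) (hαs p.1 p.2) hνs C M
  choose C₁ ε₁ hε₁ hst using hlim
  set C₂ := 1 + ∑ p, |C₁ p| with hC₂
  have hC₁ : ∀ p, C₁ p ≤ C₂ := fun p => by
    have := Finset.single_le_sum (fun q _ => abs_nonneg (C₁ q)) (Finset.mem_univ p)
    have := le_abs_self (C₁ p)
    linarith
  have hC₂0 : 0 < C₂ := by positivity
  set κ := νs / 2 with hκdef
  have hκ : 0 < κ := by positivity
  set C₃ := C₂ + (C₂ + Kb) * (4 * (C₂ / κ)) with hC₃
  have hKb : 0 < Kb := by positivity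
  have hC₃0 : 0 < C₃ := by positivity
  obtain ⟨e₁, he₁, he₁'⟩ : ∃ e > 0, ∀ p, e ≤ ε₁ p := by
    obtain ⟨e, he, he'⟩ : ∃ e, 0 < e ∧ ∀ p ∈ (Finset.univ : Finset β), e ≤ ε₁ p := by
      rcases (Finset.univ : Finset β).eq_empty_or_nonempty with h | h
      · exact ⟨1, one_pos, by simp [h]⟩
      · exact ⟨Finset.univ.inf' h ε₁, (Finset.lt_inf'_iff h).2 fun p _ => hε₁ p,
          fun p hp => Finset.inf'_le _ hp⟩
    exact ⟨e, he, fun p => he' p (Finset.mem_univ p)⟩
  refine ⟨L * C₃ + C₂ + C₃, min (min e₁ 1) (min (min r (1 / 2) / (C₃ + 1)) ((4 * (|C| + 1))⁻¹)),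
    by positivity, ?_⟩
  intro x ε η a b A A0 W V Q R ν α hε hεη hη0 hx hS
  simp only [le_min_iff] at hη0
  obtain ⟨⟨hηe, hη1⟩, hηr, hηC⟩ := hη0
  have hη : 0 < η := hε.trans_le hεη
  set c := a + (m : ℝ) / ε
  have hac : a ≤ c := le_add_of_nonneg_right (by positivity)
  have hcb : c ≤ b := hS.le
  have hWc : ∀ p, ContinuousOn (W p) (Icc a b) := fun p t ht =>
    (hS.riccW p t ht).continuousAt.continuousWithinAt
  have hVc : ∀ p, ContinuousOn (V p) (Icc a b) := fun p t ht =>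
    (hS.riccV p t ht).continuousAt.continuousWithinAt
  set T := ctrlWord β (stageWeight αs νs) i (-x)
  have hTK : T ∈ K := ⟨x, mem_closedBall_zero_iff.2 hx, rfl⟩
  set N : BlkAlg β := fun p => Q p b * (R p b)⁻¹
  -- block estimates
  have est : ∀ p : β, ‖N p - T p‖ ≤ C₃ * η ∧
      ‖W p b - V p b‖ ≤ C₂ * ε * Real.exp (-κ * (b - c)) := fun p => by
    obtain ⟨h1, h2⟩ := hst p x ε η a (A p) (A0 p) (W p) (V p) (Q p) (R p) ν (α p) hε hεη
      (hηe.trans (he₁' p)) hx (hS.ctrl p)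
    refine hS.block_est p hε hεη hνs hη1 ?_ (hC₁ p) hC₂0 hKb h1 h2
      ((norm_le_pi_norm T p).trans ((hKn T hTK).trans (by linarith [le_max_left Kn 0])))
    rw [le_inv_comm₀ hη (by positivity), ← one_div, le_div_iff₀ hη] at hηC
    nlinarith [le_abs_self C]
  have hN : ‖N - T‖ ≤ C₃ * η :=
    (pi_norm_le_iff_of_nonneg (by positivity)).2 fun p => (est p).1
  have hsmall : C₃ * η ≤ min r (1 / 2) := by
    rw [le_div_iff₀ (by positivity)] at hηr
    nlinarith
  obtain ⟨hNU, hNlip⟩ := hlip T hTK N (hN.trans (hsmall.trans (min_le_left _ _)))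
  have hpos : ∀ p, 0 < (N p).det.re := fun p => (one_half_pos (α := ℝ)).trans (hNU p).1
  refine ⟨hpos, fun p => ⟨?_, ?_, fun hp => ?_⟩, ?_, fun p => ?_, fun p => ?_⟩
  · exact BlockAux.isRealBlk_smul _ (hS.block_real p (hac.trans hcb))
  · exact det_detScale_smul (BlockAux.det_im_eq_zero (hS.block_real p (hac.trans hcb))) (hpos p)
  · refine hS.block_triv p (hac.trans hcb) hp ?_
    have h1 := (norm_le_pi_norm (N - T) p).trans (hN.trans (hsmall.trans (min_le_right _ _)))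
    rwa [Pi.sub_apply, show T p = 1 from (ctrlWord_isTarget β _ i (-x) p).2.2 hp] at h1
  · have hT : normBlk T = T := funext fun p =>
      detScale_smul_of_det_one (ctrlWord_isTarget β _ i (-x) p).2.1
    rw [hT] at hNlip
    refine hNlip.trans ?_
    calc L * ‖N - T‖ ≤ L * (C₃ * η) := mul_le_mul_of_nonneg_left hN hL
      _ ≤ _ := by nlinarith
  · show |Real.log (detScale p.1 (N p))| ≤ 1
    obtain ⟨h1, h2⟩ := hNU p
    rw [detScale, Real.log_rpow (hpos p), abs_mul, abs_neg, ← one_mul (1 : ℝ)]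
    have h3 : |Real.log (N p).det.re| ≤ Real.log 2 := by
      rw [abs_le]
      constructor
      · have := Real.log_le_log (show (0 : ℝ) < 1 / 2 by norm_num) h1.le
        rwa [one_div, Real.log_inv] at this
      · exact Real.log_le_log (hpos p) h2.le
    refine mul_le_mul ?_ (h3.trans ((Real.log_le_sub_one_of_pos two_pos).trans_eq (by norm_num)))
      (abs_nonneg _) zero_le_one
    rw [abs_of_nonneg (by positivity), div_le_one (by positivity)]
    have a1 : (0 : ℝ) ≤ (p.1.1 : ℝ) := Nat.cast_nonneg _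
    have a2 : (0 : ℝ) ≤ (p.1.2 : ℝ) := Nat.cast_nonneg _
    nlinarith
  · refine (est p).2.trans ?_
    gcongr
    nlinarith

end Vale.Agent.P225
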