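import Vale.Agent.P225.Group.Elementary
import Vale.Agent.P225.Riccati.Basic

/-!
P225, module C: the tesseral basis on truncated points, where the real structure is a signed
permutation and a gauge operator has the entries of its block in the basis `blkVec`.
-/

noncomputable section

namespace Vale.Agent.P225

open Matrix SU2
open scoped ComplexOrder Matrix.Norms.L2Operator

variable {K : ℕ}

/-- The change to the tesseral basis, triple by triple. -/
def tessMat (K : ℕ) : Op (PntK K) :=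
  fun x y => if h : x.1 = y.1 then
    ∏ k, tess (x.1.1 k) (x.2 k) (Fin.cast (by rw [h]) (y.2 k)) else 0

theorem tessMat_apply_same (t : {t : Fin 3 → Fin (K + 1) // LblOK fun k => (t k : ℕ)})
    (m n : MIdx fun k => (t.1 k : ℕ)) :
    tessMat K ⟨t, m⟩ ⟨t, n⟩ = ∏ k, tess (t.1 k) (m k) (n k) := by
  simp [tessMat]

theorem tessMat_apply_ne {x y : PntK K} (h : x.1 ≠ y.1) : tessMat K x y = 0 := dif_neg h

theorem tessMat_unitary :
    (tessMat K)ᴴ * tessMat K = 1 ∧ tessMat K * (tessMat K)ᴴ = 1 := by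
  suffices h : (tessMat K)ᴴ * tessMat K = 1 from ⟨h, mul_eq_one_comm.1 h⟩
  ext ⟨t, m⟩ ⟨u, n⟩
  rw [Matrix.mul_apply, Fintype.sum_sigma, Fintype.sum_eq_single t fun v hv =>
    Finset.sum_eq_zero fun w _ => by
      rw [conjTranspose_apply, tessMat_apply_ne (x := ⟨v, w⟩) (y := ⟨t, m⟩) hv, star_zero,
        zero_mul]]
  by_cases htu : t = u
  · subst htu
    have hs : ∀ k, ∑ j, star (tess (t.1 k) j (m k)) * tess (t.1 k) j (n k) =
        if m k = n k then 1 else 0 := fun k => by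
      have h := congrFun (congrFun (tess_unitary (t.1 k : ℕ)).1 (m k)) (n k)
      simpa [Matrix.mul_apply, Matrix.one_apply] using h
    simp only [conjTranspose_apply, tessMat_apply_same, star_prod, ← Finset.prod_mul_distrib]
    rw [← Fintype.prod_sum (fun k j => star (tess (t.1 k) j (m k)) * tess (t.1 k) j (n k)),
      Finset.prod_congr rfl fun k _ => hs k, Matrix.one_apply]
    by_cases hmn : m = n
    · subst hmn; simp
    · obtain ⟨k, hk⟩ := Function.ne_iff.1 hmn
      rw [Finset.prod_eq_zero (Finset.mem_univ k) (if_neg hk), if_neg]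
      simpa using hmn
  · rw [Matrix.one_apply_ne (by simp [htu])]
    exact Finset.sum_eq_zero fun w _ => by
      rw [tessMat_apply_ne (x := ⟨t, w⟩) (y := ⟨u, n⟩) htu, mul_zero]

/-- Functions of the triple commute with the change of basis. -/
theorem tessMat_commute (f : Lbl → ℂ) :
    Commute (tessMat K) (diagonal fun x : PntK K => f (lab x.out)) := by
  ext x y
  rw [mul_diagonal, diagonal_mul]
  by_cases h : x.1 = y.1
  · rw [show lab x.out = lab y.out from congrArg (fun t => fun k => (t.1 k : ℕ)) h, mul_comm]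
  · rw [tessMat_apply_ne h, zero_mul, mul_zero]

/-- The partner of a truncated point under the real structure. -/
def flipPnt (x : PntK K) : PntK K := ⟨x.1, fun k => flipIdx (x.1.1 k) (x.2 k)⟩

/-- The sign of the real structure on a truncated point. -/
def flipPntSgn (x : PntK K) : ℂ := ∏ k, flipSgn (x.1.1 k) (x.2 k)

theorem flipPnt_involutive : Function.Involutive (flipPnt (K := K)) := by
  rintro ⟨t, m⟩
  simp only [flipPnt]
  congr 1
  funext k
  simp only [flipIdx]
  split_ifs <;> simp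

/-- The real structure in the tesseral basis. -/
theorem thetaMat_tess :
    thetaMat K * (tessMat K).map star =
      fun x y => flipPntSgn y * tessMat K x (flipPnt y) := by
  ext ⟨t, m⟩ ⟨u, n⟩
  rw [Matrix.mul_apply, Fintype.sum_sigma, Fintype.sum_eq_single t fun v hv =>
    Finset.sum_eq_zero fun w _ => by
      rw [show thetaMat K ⟨t, m⟩ ⟨v, w⟩ = 0 from dif_neg (Ne.symm hv), zero_mul]]
  by_cases htu : t = u
  · subst htu
    have hs : ∀ k, ∑ j, conjJ (t.1 k) (m k) j * star (tess (t.1 k) j (n k)) =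
        flipSgn (t.1 k) (n k) * tess (t.1 k) (m k) (flipIdx (t.1 k) (n k)) := fun k => by
      have h := conjJ_tess (t.1 k : ℕ) (m k) (n k)
      simpa [Matrix.mul_apply] using h
    simp only [Matrix.map_apply, tessMat_apply_same, thetaMat_apply_same, star_prod,
      ← Finset.prod_mul_distrib, flipPnt, flipPntSgn]
    rw [← Fintype.prod_sum (fun k j => conjJ (t.1 k) (m k) j * star (tess (t.1 k) j (n k)))]
    exact Finset.prod_congr rfl fun k _ => hs k
  · rw [tessMat_apply_ne (x := ⟨t, m⟩) (y := flipPnt ⟨u, n⟩) htu, mul_zero]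
    exact Finset.sum_eq_zero fun w _ => by
      rw [Matrix.map_apply, tessMat_apply_ne (x := ⟨t, w⟩) (y := ⟨u, n⟩) htu, star_zero,
        mul_zero]

theorem lab_tri (G : Fin 3) (x : Pnt) :
    lab x G < lab x (G + 1) + lab x (G + 2) + 1 ∧ lab x (G + 1) ≤ lab x G + lab x (G + 2) ∧
      lab x (G + 2) ≤ lab x G + lab x (G + 1) ∧
        Even (lab x G + lab x (G + 1) + lab x (G + 2)) := by
  obtain ⟨he, h0, h1, h2⟩ := x.1.2
  rw [Nat.even_iff] at he
  rw [Nat.even_iff]
  fin_cases G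
  · show x.1.1 0 < x.1.1 1 + x.1.1 2 + 1 ∧ x.1.1 1 ≤ x.1.1 0 + x.1.1 2 ∧
      x.1.1 2 ≤ x.1.1 0 + x.1.1 1 ∧ (x.1.1 0 + x.1.1 1 + x.1.1 2) % 2 = 0
    omega
  · show x.1.1 1 < x.1.1 2 + x.1.1 0 + 1 ∧ x.1.1 2 ≤ x.1.1 1 + x.1.1 0 ∧
      x.1.1 0 ≤ x.1.1 1 + x.1.1 2 ∧ (x.1.1 1 + x.1.1 2 + x.1.1 0) % 2 = 0
    omega
  · show x.1.1 2 < x.1.1 0 + x.1.1 1 + 1 ∧ x.1.1 0 ≤ x.1.1 2 + x.1.1 1 ∧
      x.1.1 1 ≤ x.1.1 2 + x.1.1 0 ∧ (x.1.1 2 + x.1.1 0 + x.1.1 1) % 2 = 0
    omega

/-- The basis label of a point in its gauge block. -/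
def ptBlk (G : Fin 3) (x : Pnt) : BlkIdx (blkLab G x) :=
  ⟨⟨⟨lab x G, (lab_tri G x).1⟩, (lab_tri G x).2.1, (lab_tri G x).2.2.1, (lab_tri G x).2.2.2⟩, x.2 G⟩

/-- Moving a basis label between equal blocks. -/
def blkCast {p q : ℕ × ℕ} (h : p = q) (x : BlkIdx p) : BlkIdx q := h ▸ x

/-- The tesseral matrix by numbers (zero out of range). -/
def tessN (a i j : ℕ) : ℂ :=
  if h : i < a + 1 ∧ j < a + 1 then tess a ⟨i, h.1⟩ ⟨j, h.2⟩ else 0

theorem tessN_eq {a : ℕ} (i j : Fin (a + 1)) : tessN a i j = tess a i j :=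
  dif_pos (show (i : ℕ) < a + 1 ∧ (j : ℕ) < a + 1 from ⟨i.isLt, j.isLt⟩)

theorem tessN_inner (a i j : ℕ) (hi : i < a + 1) (hj : j < a + 1) :
    ∑ l : Fin (a + 1), star (tessN a l i) * tessN a l j = if i = j then 1 else 0 := by
  have h := congrFun (congrFun (tess_unitary a).1 ⟨i, hi⟩) ⟨j, hj⟩
  rw [Matrix.mul_apply, Matrix.one_apply] at h
  simp only [Fin.ext_iff, conjTranspose_apply] at h
  rw [← h]
  exact Finset.sum_congr rfl fun l _ => by rw [← tessN_eq, ← tessN_eq]

theorem tessMat_numbers (y : PntK K) (n : MIdx (lab y.out)) :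
    tessMat K ⟨y.1, n⟩ y = ∏ k, tessN (lab y.out k) (n k) (idx y.out k) := by
  obtain ⟨u, n₀⟩ := y
  exact (tessMat_apply_same u n n₀).trans (Finset.prod_congr rfl fun k _ => (tessN_eq _ _).symm)

/-- The block vector of a point, in numbers. -/
theorem blkVec_ptBlk (G : Fin 3) (y : Pnt) {q : ℕ × ℕ} (h : blkLab G y = q) :
    blkVec q (blkCast h (ptBlk G y)) = cmat G q (lab y) *ᵥ fun l => tess (lab y G) l (idF y G) := by
  subst h
  funext u
  change ∑ l : Fin (lab y G + 1), _ = ∑ l : Fin (lab y G + 1), _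
  exact Finset.sum_congr rfl fun l _ =>
    congrArg (· * _) (blkVec_gauge y.1.2 G (u.1 : ℕ) (u.2 : ℕ) (l : ℕ)).symm

/-- Summing one block entry against the tesseral vectors of two points of the same labels. -/
theorem tess_gauge_sum (G : Fin 3) (M : ∀ p, BlkMat p) (x y : PntK K)
    (h1 : lab x.out (G + 1) = lab y.out (G + 1)) (h2 : lab x.out (G + 2) = lab y.out (G + 2)) :
    ∑ m : MIdx (lab x.out), ∑ n : MIdx (lab y.out),
        star (tessMat K ⟨x.1, m⟩ x) * gaugeMat K G M ⟨x.1, m⟩ ⟨y.1, n⟩ * tessMat K ⟨y.1, n⟩ y =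
      (if idx x.out (G + 1) = idx y.out (G + 1) then 1 else 0) *
      (if idx x.out (G + 2) = idx y.out (G + 2) then 1 else 0) *
      ∑ j, ∑ a, star (tess (lab x.out G) a (idF x.out G)) *
        ((cmat G (blkLab G x.out) (lab x.out))ᴴ * M (blkLab G x.out) *
          cmat G (blkLab G x.out) (lab y.out)) a j * tess (lab y.out G) j (idF y.out G) := by
  set t := lab x.out with ht
  set u := lab y.out with hu
  set A := (cmat G (blkLab G x.out) t)ᴴ * M (blkLab G x.out) * cmat G (blkLab G x.out) u with hA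
  let AN : ℕ → Fin (u G + 1) → ℂ := fun a j => if h : a < t G + 1 then A ⟨a, h⟩ j else 0
  let f : Fin (u G + 1) → (k : Fin 3) → Fin (t k + 1) → ℂ := fun j k a =>
    star (tessN (t k) a (idx x.out k)) *
      if k = G then AN a j * tessN (u G) j (idx y.out G) else tessN (t k) a (idx y.out k)
  have step : ∀ m : MIdx t, ∑ n : MIdx u, star (tessMat K ⟨x.1, m⟩ x) *
      gaugeMat K G M ⟨x.1, m⟩ ⟨y.1, n⟩ * tessMat K ⟨y.1, n⟩ y = ∑ j, ∏ k, f j k (m k) := by
    intro m
    rw [sum_blk G y.out (PntK.out ⟨x.1, m⟩) h1.symm h2.symm _ fun n hn => by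
      rw [gaugeMat, gaugeEntry_of_not, mul_zero, zero_mul]
      exact fun h => hn ⟨h.2.2.1.symm, h.2.2.2.symm⟩]
    refine Finset.sum_congr rfl fun j => ?_
    intro _
    set n := setIdx G y.out (PntK.out ⟨x.1, m⟩) h1.symm h2.symm j with hn
    have hsb : SameBlk G (PntK.out ⟨x.1, m⟩) (PntK.out ⟨y.1, n⟩) :=
      ⟨h1, h2, (setIdx_one G y.out (PntK.out ⟨x.1, m⟩) h1.symm h2.symm j).symm,
        (setIdx_two G y.out (PntK.out ⟨x.1, m⟩) h1.symm h2.symm j).symm⟩
    have hj : idF (PntK.out ⟨y.1, n⟩) G = j :=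
      Fin.ext (setIdx_G G y.out (PntK.out ⟨x.1, m⟩) h1.symm h2.symm j)
    have hE : gaugeMat K G M ⟨x.1, m⟩ ⟨y.1, n⟩ = AN (m G) j := by
      rw [gaugeMat, gaugeEntry_of_same (x := PntK.out ⟨x.1, m⟩) (p := blkLab G x.out) rfl hsb, hj]
      simp only [AN]
      rw [dif_pos (show (m G : ℕ) < t G + 1 from (m G).isLt)]
      rfl
    have en1 : ((n (G + 1) : ℕ)) = m (G + 1) :=
      setIdx_one G y.out (PntK.out ⟨x.1, m⟩) h1.symm h2.symm j
    have en2 : ((n (G + 2) : ℕ)) = m (G + 2) :=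
      setIdx_two G y.out (PntK.out ⟨x.1, m⟩) h1.symm h2.symm j
    have enG : ((n G : ℕ)) = j := congrArg Fin.val hj
    rw [hE, tessMat_numbers x m, tessMat_numbers y n, fin3_prod G, fin3_prod G, fin3_prod G,
      en1, en2, enG]
    simp only [f, if_pos, if_neg (show G + 1 ≠ G by simp),
      if_neg (show G + 2 ≠ G by fin_cases G <;> simp), star_mul', ← ht, ← hu, ← h1, ← h2]
    ring
  rw [Finset.sum_congr rfl fun m _ => step m, Finset.sum_comm, Finset.mul_sum]
  refine Finset.sum_congr rfl fun j _ => ?_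
  rw [← Fintype.prod_sum (f j), fin3_prod G]
  have e1 := tessN_inner (t (G + 1)) (idx x.out (G + 1)) (idx y.out (G + 1)) (x.out.2 _).isLt
    (by rw [h1]; exact (y.out.2 _).isLt)
  have e2 := tessN_inner (t (G + 2)) (idx x.out (G + 2)) (idx y.out (G + 2)) (x.out.2 _).isLt
    (by rw [h2]; exact (y.out.2 _).isLt)
  simp only [f, if_pos, if_neg (show G + 1 ≠ G by simp),
    if_neg (show G + 2 ≠ G by fin_cases G <;> simp), e1, e2]
  rw [mul_assoc, mul_comm]
  refine congrArg _ (Finset.sum_congr rfl fun a _ => ?_)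
  simp only [AN]
  rw [dif_pos a.isLt, ← tessN_eq a (idF x.out G), ← tessN_eq j (idF y.out G), mul_assoc]

theorem gaugeMat_tess (G : Fin 3) (M : ∀ p, BlkMat p) (x y : PntK K) :
    ((tessMat K)ᴴ * gaugeMat K G M * tessMat K) x y =
      if h : SameBlk G x.out y.out then
        star (blkVec (blkLab G x.out) (ptBlk G x.out)) ⬝ᵥ
          (M (blkLab G x.out) *ᵥ blkVec (blkLab G x.out)
            (blkCast (Prod.ext h.1.symm h.2.1.symm) (ptBlk G y.out)))
      else 0 := by
  obtain ⟨t, m₀⟩ := x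
  obtain ⟨u, n₀⟩ := y
  set x : PntK K := ⟨t, m₀⟩ with hx
  set y : PntK K := ⟨u, n₀⟩ with hy
  have hS : ((tessMat K)ᴴ * gaugeMat K G M * tessMat K) x y =
      ∑ m : MIdx (lab x.out), ∑ n : MIdx (lab y.out),
        star (tessMat K ⟨x.1, m⟩ x) * gaugeMat K G M ⟨x.1, m⟩ ⟨y.1, n⟩ *
          tessMat K ⟨y.1, n⟩ y := by
    rw [Matrix.mul_assoc, Matrix.mul_apply, Fintype.sum_sigma, Fintype.sum_eq_single x.1 fun v hv =>
      Finset.sum_eq_zero fun w _ => by
        rw [conjTranspose_apply, tessMat_apply_ne (x := ⟨v, w⟩) (y := x) hv, star_zero, zero_mul]]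
    refine Finset.sum_congr rfl fun m _ => ?_
    rw [Matrix.mul_apply, Fintype.sum_sigma, Fintype.sum_eq_single y.1 fun v hv =>
      Finset.sum_eq_zero fun w _ => by
        rw [tessMat_apply_ne (x := ⟨v, w⟩) (y := y) hv, mul_zero], Finset.mul_sum]
    exact Finset.sum_congr rfl fun n _ => (mul_assoc _ _ _).symm
  rw [hS]
  by_cases hl : lab x.out (G + 1) = lab y.out (G + 1) ∧ lab x.out (G + 2) = lab y.out (G + 2)
  · rw [tess_gauge_sum G M x y hl.1 hl.2]
    by_cases hsb : SameBlk G x.out y.out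
    · rw [dif_pos hsb, if_pos hsb.2.2.1, if_pos hsb.2.2.2, one_mul, one_mul,
        show blkVec (blkLab G x.out) (ptBlk G x.out) = _ from blkVec_ptBlk G x.out rfl,
        blkVec_ptBlk G y.out, Matrix.mulVec_mulVec, star_mulVec, ← dotProduct_mulVec,
        Matrix.mulVec_mulVec, ← Matrix.mul_assoc, Finset.sum_comm]
      simp only [dotProduct, mulVec, Pi.star_apply, Finset.mul_sum, mul_assoc]
    · rw [dif_neg hsb]
      have : ¬(idx x.out (G + 1) = idx y.out (G + 1) ∧ idx x.out (G + 2) = idx y.out (G + 2)) :=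
        fun h => hsb ⟨hl.1, hl.2, h.1, h.2⟩
      rw [not_and_or] at this
      rcases this with h | h <;> simp [h]
  · rw [dif_neg (fun h : SameBlk G x.out y.out => hl ⟨h.1, h.2.1⟩)]
    refine Finset.sum_eq_zero fun m _ => Finset.sum_eq_zero fun n _ => ?_
    rw [gaugeMat, gaugeEntry_of_not, mul_zero, zero_mul]
    exact fun h => hl ⟨h.1, h.2.1⟩

end Vale.Agent.P225
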