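import Vale.Agent.P225.Stage.Gauge
import Vale.Agent.P225.Stage.TessPoint
import Vale.Agent.P225.Riccati.Solve

/-!
P225, module E: the real structure as a real algebra endomorphism of truncated operators, and what
commutes with gauge operators.
-/

noncomputable section

namespace Vale.Agent.P225

open Set Matrix SU2
open scoped ComplexOrder Matrix.Norms.L2Operator

variable {K : ℕ} {G : Fin 3} {a b : ℝ} {ν : ℝ → ℝ}

theorem thetaMat_sq' (K : ℕ) : (thetaMat K).map star * thetaMat K = 1 :=
  mul_eq_one_comm.1 thetaMat_sq

/-- The real structure is antilinear and multiplicative. -/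
def thetaHom (K : ℕ) : Op (PntK K) →ₐ[ℝ] Op (PntK K) where
  toFun M := thetaMat K * M.map star * (thetaMat K).map star
  map_one' := by rw [Matrix.map_one _ (star_zero ℂ) (star_one ℂ), mul_one, thetaMat_sq]
  map_mul' M N := by
    rw [map_star_mul]
    simp only [mul_assoc]
    rw [← mul_assoc ((thetaMat K).map star) (thetaMat K), thetaMat_sq', one_mul]
  map_zero' := by simp
  map_add' M N := by rw [Matrix.map_add _ star_add, mul_add, add_mul]
  commutes' r := by
    have h : (algebraMap ℝ (Op (PntK K)) r).map star = algebraMap ℝ (Op (PntK K)) r := by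
      rw [Algebra.algebraMap_eq_smul_one]
      ext i j
      by_cases hij : i = j <;> simp [hij]
    rw [h, ← Algebra.commutes r (thetaMat K), mul_assoc, thetaMat_sq, mul_one]

theorem thetaHom_continuous (K : ℕ) : Continuous (thetaHom K) :=
  (thetaHom K).toLinearMap.continuous_of_finiteDimensional

theorem thetaHom_fixed {K : ℕ} (M : Op (PntK K)) :
    thetaHom K M = M ↔ thetaMat K * M.map star = M * thetaMat K := by
  refine ⟨fun h => ?_, fun h => ?_⟩
  · conv_rhs => rw [← h]
    show _ = thetaMat K * M.map star * (thetaMat K).map star * thetaMat K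
    rw [mul_assoc, thetaMat_sq', mul_one]
  · show thetaMat K * M.map star * (thetaMat K).map star = M
    rw [h, mul_assoc, thetaMat_sq, mul_one]

/-- Backward maps with the same coefficient agree. -/
theorem back_unique {n : Type*} [Fintype n] [DecidableEq n] {W R R' : ℝ → Op n}
    (hW : ContinuousOn W (Icc a b)) (hR : IsBack W R a b) (hR' : IsBack W R' a b) :
    EqOn R R' (Icc a b) := fun t ht => by
  rw [back_trans hW le_rfl (ht.1.trans ht.2) hR hR' t ht, hR.1, one_mul]

theorem flipPntSgn_sq (x : PntK K) :
    star (flipPntSgn x) = flipPntSgn x ∧ flipPntSgn x * flipPntSgn x = 1 := by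
  constructor
  · rw [flipPntSgn, star_prod]
    exact Finset.prod_congr rfl fun k _ => flipSgn_star _ _
  · rw [flipPntSgn, ← Finset.prod_mul_distrib]
    exact Finset.prod_eq_one fun k _ => flipSgn_sq _ _

/-- The conjugation by the real structure, as a real algebra endomorphism. -/
theorem exists_thetaHom (K : ℕ) : ∃ φ : Op (PntK K) →ₐ[ℝ] Op (PntK K),
    Continuous φ ∧ (∀ M, φ M = thetaMat K * M.map star * (thetaMat K).map star) ∧
      ∀ M, φ M = M ↔ thetaMat K * M.map star = M * thetaMat K := by
  exact ⟨thetaHom K, thetaHom_continuous K, fun M => rfl, thetaHom_fixed⟩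

/-- Real functions of the triple are real operators. -/
theorem diagonal_lab_real (f : Lbl → ℝ) :
    thetaMat K * (diagonal fun x : PntK K => (f (lab x.out) : ℂ)).map star =
      (diagonal fun x : PntK K => (f (lab x.out) : ℂ)) * thetaMat K := by
  ext x y
  rw [diagonal_map (star_zero ℂ), mul_diagonal, diagonal_mul]
  simp only [Complex.star_def, Complex.conj_ofReal]
  by_cases h : x.1 = y.1
  · rw [show lab x.out = lab y.out from congrArg (fun t => fun k => (t.1 k : ℕ)) h, mul_comm]
  · rw [show thetaMat K x y = 0 from dif_neg h, mul_zero, zero_mul]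

/-- Functions of the frozen labels commute with gauge operators. -/
theorem gaugeMat_commute_blkLab (M : ∀ p, BlkMat p) (f : ℕ × ℕ → ℂ) :
    Commute (diagonal fun x : PntK K => f (blkLab G x.out)) (gaugeMat K G M) := by
  rw [commute_iff_eq]
  ext x y
  rw [diagonal_mul, mul_diagonal]
  by_cases h : SameBlk G x.out y.out
  · rw [h.blkLab, mul_comm]
  · rw [show gaugeMat K G M x y = 0 from gaugeEntry_of_not h, mul_zero, zero_mul]

/-- A solution with real coefficient and real start is real. -/
theorem riccati_real {A W R : ℝ → Op (PntK K)} (hν : ContinuousOn ν (Icc a b))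
    (hW : IsRiccati A ν W a b)
    (hA : ∀ t ∈ Icc a b, thetaMat K * (A t).map star = A t * thetaMat K)
    (h0 : thetaMat K * (W a).map star = W a * thetaMat K) (hR : IsBack W R a b) :
    ∀ t ∈ Icc a b, thetaMat K * (W t).map star = W t * thetaMat K ∧
      thetaMat K * (R t).map star = R t * thetaMat K := by
  have hd : ∀ {F : ℝ → Op (PntK K)} {F' : Op (PntK K)} {t : ℝ}, HasDerivAt F F' t →
      HasDerivAt (fun s => thetaHom K (F s)) (thetaHom K F') t := fun {F F' t} hF =>
    (LinearMap.toContinuousLinearMap (thetaHom K).toLinearMap).hasFDerivAt.comp_hasDerivAt t hF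
  have hW' : IsRiccati A ν (fun t => thetaHom K (W t)) a b := fun t ht => by
    refine (hd (hW t ht)).congr_deriv ?_
    simp only [map_sub, map_mul, map_smul, (thetaHom_fixed (A t)).2 (hA t ht)]
  have eW := riccati_unique hν hW' hW ((thetaHom_fixed (W a)).2 h0)
  have hWc : ContinuousOn W (Icc a b) := fun s hs => (hW s hs).continuousAt.continuousWithinAt
  have hR' : IsBack W (fun t => thetaHom K (R t)) a b := ⟨by simp [hR.1], fun t ht => by
    refine (hd (hR.2 t ht)).congr_deriv ?_
    simp only [map_neg, map_mul]
    rw [show thetaHom K (W t) = W t from eW ht]⟩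
  exact fun t ht => ⟨(thetaHom_fixed _).1 (eW ht),
    (thetaHom_fixed _).1 (back_unique hWc hR' hR ht)⟩

/-- A real operator in the adapted basis commutes with the signed flip. -/
theorem tess_real_iff (M : Op (PntK K)) :
    thetaMat K * M.map star = M * thetaMat K ↔
      ∀ x y : PntK K,
        ((tessMat K)ᴴ * M * tessMat K) (flipPnt x) (flipPnt y) =
          flipPntSgn x * star (flipPntSgn y) * star (((tessMat K)ᴴ * M * tessMat K) x y) := by
  set T := tessMat K
  obtain ⟨hTT, hTT'⟩ := tessMat_unitary (K := K)
  set N := Tᴴ * M * T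
  let F : Op (PntK K) := fun z y => if z = flipPnt y then flipPntSgn y else 0
  have hTs : T.map star * (Tᴴ).map star = 1 := by
    rw [← map_star_mul, hTT', Matrix.map_one _ (star_zero ℂ) (star_one ℂ)]
  have hF : thetaMat K * T.map star = T * F := by
    rw [thetaMat_tess]
    ext x y
    rw [Matrix.mul_apply]
    simp [F, T, mul_comm]
  have hM : M = T * N * Tᴴ := by
    simp only [N, ← mul_assoc]
    rw [hTT', one_mul, mul_assoc, hTT', mul_one]
  have e1 : thetaMat K * M.map star = T * (F * N.map star) * (Tᴴ).map star := by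
    rw [hM, map_star_mul, map_star_mul]
    simp only [← mul_assoc]
    rw [hF]
  have e2 : M * thetaMat K = T * (N * F) * (Tᴴ).map star := by
    calc M * thetaMat K = M * thetaMat K * (T.map star * (Tᴴ).map star) := by rw [hTs, mul_one]
      _ = T * N * (Tᴴ * T) * F * (Tᴴ).map star := by
        rw [hM]
        simp only [mul_assoc]
        rw [← mul_assoc (thetaMat K) (T.map star), hF]
        simp only [mul_assoc]
      _ = _ := by rw [hTT, mul_one, mul_assoc T]
  have hiff : thetaMat K * M.map star = M * thetaMat K ↔ F * N.map star = N * F := by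
    rw [e1, e2]
    refine ⟨fun h => ?_, fun h => by rw [h]⟩
    have hTs' : (Tᴴ).map star * T.map star = 1 := mul_eq_one_comm.1 hTs
    have hc : ∀ X : Op (PntK K), X = Tᴴ * (T * X * (Tᴴ).map star) * T.map star := fun X => by
      rw [mul_assoc T X, ← mul_assoc Tᴴ T, hTT, one_mul, mul_assoc X, hTs', mul_one]
    rw [hc (F * N.map star), hc (N * F), h]
  have eL : ∀ x y, (F * N.map star) (flipPnt x) y = flipPntSgn x * star (N x y) := fun x y => by
    rw [Matrix.mul_apply, Finset.sum_eq_single x]
    · simp [F]
    · intro z _ hz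
      simp [F, flipPnt_involutive.injective.ne hz.symm]
    · simp
  have eR : ∀ x y, (N * F) (flipPnt x) y = N (flipPnt x) (flipPnt y) * flipPntSgn y := fun x y => by
    rw [Matrix.mul_apply, Finset.sum_eq_single (flipPnt y)]
    · simp [F]
    · intro z _ hz
      simp [F, hz]
    · simp
  rw [hiff]
  constructor
  · intro h x y
    have h' := congrFun (congrFun h (flipPnt x)) y
    rw [eL, eR] at h'
    rw [(flipPntSgn_sq y).1, mul_right_comm, h', mul_assoc, (flipPntSgn_sq y).2, mul_one]
  · intro h
    ext u y
    obtain ⟨x, rfl⟩ : ∃ x, flipPnt x = u := ⟨flipPnt u, flipPnt_involutive u⟩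
    rw [eL, eR, h x y, (flipPntSgn_sq y).1]
    linear_combination -(flipPntSgn x * star (N x y)) * (flipPntSgn_sq y).2

end Vale.Agent.P225
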