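import Vale.Agent.P225.Riccati.Stage
import Vale.Agent.P225.Group.Targets

/-!
P225, module E (helper file): facts on one block and on the normalisation of determinants used for
the stage map.
-/

noncomputable section

namespace Vale.Agent.P225.BlockAux

open Set NormedSpace Matrix SU2
open scoped ComplexOrder Kronecker Matrix.Norms.L2Operator

variable {n : Type*} [Fintype n] [DecidableEq n]

/-- The interaction map after a stage: if `V` is nearly scalar during the control, the tail only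
adds the size of the jump. -/
theorem interaction_le [Nonempty n] {A W V Q R : ℝ → Op n} {ν α : ℝ → ℝ} {a c b κ δ : ℝ}
    (hac : a ≤ c) (hcb : c ≤ b) (hκ : 0 < κ) (hν : ∀ t ∈ Icc c b, κ ≤ ν t)
    (hνc : ContinuousOn ν (Icc c b)) (hW : IsRiccati A ν W c b) (hV : IsRiccati A ν V c b)
    (hWc : ContinuousOn W (Icc a b)) (hVc : ContinuousOn V (Icc a b))
    (hWpos : ∀ t ∈ Icc c b, (W t).PosSemidef) (hVpos : ∀ t ∈ Icc c b, (V t).PosSemidef)
    (hQ : IsBack W Q a b) (hR : IsBack V R a b) (hα : ContinuousOn α (Icc a c))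
    (hnear : ∫ t in a..c, ‖V t - (α t : ℂ) • (1 : Op n)‖ ≤ δ) (hδ : δ ≤ 1 / 4) :
    ‖W b - V b‖ ≤ Real.exp (-κ * (b - c)) * ‖W c - V c‖ ∧
      ‖Q b * (R b)⁻¹ - Q c * (R c)⁻¹‖ ≤
        ‖Q c * (R c)⁻¹‖ * (4 * (‖W c - V c‖ / κ)) := by
  obtain ⟨Q', hQ'⟩ := exists_back (hWc.mono (Icc_subset_Icc hac le_rfl))
  obtain ⟨R', hR'⟩ := exists_back (hVc.mono (Icc_subset_Icc hac le_rfl))
  obtain ⟨h1, h2⟩ := stage_tail hcb hκ hν hνc hW hV hWpos hVpos hQ' hR'
  refine ⟨h1, ?_⟩
  rw [back_trans hWc hac hcb hQ hQ' b (right_mem_Icc.2 hcb),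
    back_trans hVc hac hcb hR hR' b (right_mem_Icc.2 hcb), Matrix.mul_inv_rev]
  -- the scalar factor
  set K : ℝ → Op n := fun t => V t - (α t : ℂ) • (1 : Op n)
  have hKc : ContinuousOn K (Icc a c) :=
    (hVc.mono (Icc_subset_Icc_right hcb)).sub
      ((Complex.continuous_ofReal.comp_continuousOn hα).smul continuousOn_const)
  set α' := IccExtend hac ((Icc a c).domRestrict α)
  have hα'c : Continuous α' := (continuousOn_iff_continuous_domRestrict.1 hα).Icc_extend'
  set s : ℝ := Real.exp (∫ u in a..c, α' u)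
  set Y : ℝ → Op n := fun t => Real.exp (∫ u in a..t, α' u) • R t
  have hY : ∀ t ∈ Icc a c, HasDerivAt Y (-(Y t * K t)) t := fun t ht => by
    refine ((hα'c.integral_hasStrictDerivAt a t).hasDerivAt.exp.smul
      (hR.2 t ⟨ht.1, ht.2.trans hcb⟩)).congr_deriv ?_
    simp only [Y, K, show α' t = α t from IccExtend_of_mem hac _ ht, Complex.coe_smul, mul_sub,
      mul_smul_comm, smul_mul_assoc, mul_one, smul_smul]
    module
  have hsmall : ‖Y c - 1‖ ≤ 1 / 2 := by
    have h := propagator_sub_le (Y := Y) (Z := fun _ => (1 : Op n)) (K := K) (L := fun _ => 0) hac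
      hKc continuousOn_const hY (fun t _ => by simpa using hasDerivAt_const t (1 : Op n))
      (by simp [Y, hR.1]) rfl
    simp only [norm_zero, intervalIntegral.integral_zero, add_zero, sub_zero] at h
    have hI : 0 ≤ ∫ u in a..c, ‖K u‖ :=
      intervalIntegral.integral_nonneg hac fun u _ => norm_nonneg _
    have he : Real.exp (∫ u in a..c, ‖K u‖) ≤ 2 := by
      refine (Real.exp_le_exp.2 (hnear.trans hδ)).trans ?_
      have := Real.exp_bound_div_one_sub_of_interval (x := 1 / 4) (by norm_num) (by norm_num)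
      norm_num at this ⊢
      linarith
    calc ‖Y c - 1‖ ≤ Real.exp (∫ u in a..c, ‖K u‖) * ∫ u in a..c, ‖K u‖ := h
      _ ≤ 2 * (1 / 4) := mul_le_mul he (hnear.trans hδ) hI (by norm_num)
      _ = 1 / 2 := by norm_num
  have hRu : IsUnit (R c) := back_isUnit hVc hR c ⟨hac, hcb⟩
  have hs : s ≠ 0 := (Real.exp_pos _).ne'
  set Yi : Op n := s⁻¹ • (R c)⁻¹
  have hdetR : IsUnit (R c).det := (Matrix.isUnit_iff_isUnit_det _).1 hRu
  have hYYi : Y c * Yi = 1 := by
    simp only [Y, Yi, smul_mul_assoc, mul_smul_comm, smul_smul]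
    rw [Matrix.mul_nonsing_inv _ hdetR]
    show (s⁻¹ * s) • (1 : Op n) = 1
    rw [inv_mul_cancel₀ hs, one_smul]
  have hYn : ‖Y c‖ ≤ 2 := by
    have := norm_add_le (Y c - 1) (1 : Op n)
    rw [sub_add_cancel, norm_one] at this
    linarith
  have hYin : ‖Yi‖ ≤ 2 := by
    have e : Yi = 1 - (Y c - 1) * Yi := by rw [sub_mul, hYYi, one_mul]; abel
    have h := norm_sub_le (1 : Op n) ((Y c - 1) * Yi)
    rw [← e, norm_one] at h
    nlinarith [norm_mul_le (Y c - 1) Yi, norm_nonneg Yi]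
  set E : Op n := Q' b * (R' b)⁻¹ - 1
  have key : Q c * Q' b * ((R' b)⁻¹ * (R c)⁻¹) - Q c * (R c)⁻¹ =
      (Q c * (R c)⁻¹) * (Y c * E * Yi) := by
    have hsc : Y c * E * Yi = R c * E * (R c)⁻¹ := by
      show (s • R c) * E * (s⁻¹ • (R c)⁻¹) = _
      simp only [smul_mul_assoc, mul_smul_comm, smul_smul, inv_mul_cancel₀ hs, one_smul]
    have hinv : (R c)⁻¹ * R c = 1 := Matrix.nonsing_inv_mul _ hdetR
    rw [hsc, show Q c * (R c)⁻¹ * (R c * E * (R c)⁻¹) = Q c * ((R c)⁻¹ * R c) * E * (R c)⁻¹ by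
      simp only [mul_assoc], hinv, mul_one]
    simp only [E, mul_sub, sub_mul, mul_one, mul_assoc]
  rw [key]
  refine (norm_mul_le _ _).trans (mul_le_mul_of_nonneg_left ?_ (norm_nonneg _))
  calc ‖Y c * E * Yi‖ ≤ ‖Y c‖ * ‖E‖ * ‖Yi‖ :=
        (norm_mul_le _ _).trans (mul_le_mul_of_nonneg_right (norm_mul_le _ _) (norm_nonneg _))
    _ ≤ 2 * (‖W c - V c‖ / κ) * 2 := by gcongr
    _ = _ := by ring

/-- Anything commuting with the coefficient commutes with the backward map. -/
theorem back_commute {W R : ℝ → Op n} {a b : ℝ} (hW : ContinuousOn W (Icc a b))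
    (hR : IsBack W R a b) {M : Op n} (h : ∀ t ∈ Icc a b, Commute M (W t)) :
    ∀ t ∈ Icc a b, Commute M (R t) := by
  intro t ht
  refine sub_eq_zero.1 (eq_zero_of_deriv_le (f := fun s => M * R s - R s * M)
    (f' := fun s => -((M * R s - R s * M) * W s)) (K := fun s => ‖W s‖) (fun s hs => ?_) hW.norm
    (fun s _ => ?_) (by simp [hR.1]) t ht)
  · refine (((hR.2 s hs).const_mul M).sub ((hR.2 s hs).mul_const M)).congr_deriv ?_
    simp only [sub_mul, mul_neg, neg_mul, mul_assoc, (h s hs).eq]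
    abel
  · rw [norm_neg, mul_comm (‖W s‖)]
    exact norm_mul_le _ _

/-- A matrix commuting with everything is scalar. -/
theorem exists_eq_smul_one {M : Op n} (h : ∀ N : Op n, Commute N M) :
    ∃ z : ℂ, M = z • (1 : Op n) := by
  obtain ⟨z, hz⟩ := Matrix.mem_range_scalar_of_commute_single (M := M) fun i j _ => h _
  exact ⟨z, by rw [← hz, Matrix.scalar_apply, Matrix.smul_one_eq_diagonal]⟩

omit [Fintype n] in
theorem commute_smul_one [Fintype n] (z : ℂ) (N : Op n) : Commute N (z • (1 : Op n)) :=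
  ((Commute.one_right N).smul_right z)

variable {p : ℕ × ℕ}

/-- The matrix of the real structure. -/
abbrev jMat (p : ℕ × ℕ) : BlkMat p := conjJ p.1 ⊗ₖ conjJ p.2

theorem isUnit_conjJ (a : ℕ) : IsUnit (conjJ a) := by
  refine (Matrix.isUnit_iff_isUnit_det _).2 (Matrix.isUnit_det_of_right_inverse
    (B := rep a (star (imUnit 1))) ?_)
  rw [conjJ, ← rep_mul, show imUnit 1 * star (imUnit 1) = 1 by
    rw [Quaternion.self_mul_star]
    have h : Quaternion.normSq (imUnit 1) = 1 := by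
      rw [Quaternion.normSq_def']; show (0 : ℝ) ^ 2 + 0 ^ 2 + 1 ^ 2 + 0 ^ 2 = 1; norm_num
    rw [h]; rfl, rep_one]

theorem isUnit_det_jMat (p : ℕ × ℕ) : IsUnit (jMat p).det := by
  rw [Matrix.det_kronecker]
  exact ((((Matrix.isUnit_iff_isUnit_det _).1 (isUnit_conjJ p.1)).pow _).mul
    (((Matrix.isUnit_iff_isUnit_det _).1 (isUnit_conjJ p.2)).pow _))

theorem map_star_mul (M N : BlkMat p) : (M * N).map star = M.map star * N.map star := by
  ext i j
  simp [Matrix.mul_apply]

/-- The real structure as an algebra endomorphism. -/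
def realHom (p : ℕ × ℕ) : BlkMat p →ₐ[ℝ] BlkMat p :=
  AlgHom.ofLinearMap
    { toFun := fun M => jMat p * M.map star * (jMat p)⁻¹
      map_add' := fun M N => by
        rw [show (M + N).map star = M.map star + N.map star by ext; simp, mul_add, add_mul]
      map_smul' := fun r M => by
        rw [show (r • M).map star = r • M.map star by ext; simp, mul_smul_comm, smul_mul_assoc]
        rfl }
    (by
      show jMat p * (1 : BlkMat p).map star * (jMat p)⁻¹ = 1
      rw [show (1 : BlkMat p).map star = 1 from Matrix.map_one _ (star_zero ℂ) (star_one ℂ), mul_one,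
        Matrix.mul_nonsing_inv _ (isUnit_det_jMat p)])
    (fun M N => by
      show jMat p * (M * N).map star * (jMat p)⁻¹ = _ * _
      rw [map_star_mul]
      show _ = jMat p * M.map star * (jMat p)⁻¹ * (jMat p * N.map star * (jMat p)⁻¹)
      calc jMat p * (M.map star * N.map star) * (jMat p)⁻¹
          = jMat p * M.map star * (1 : BlkMat p) * N.map star * (jMat p)⁻¹ := by
            rw [mul_one]; simp only [mul_assoc]
        _ = _ := by
            rw [← Matrix.nonsing_inv_mul _ (isUnit_det_jMat p)]; simp only [mul_assoc])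

theorem isRealBlk_iff (M : BlkMat p) : IsRealBlk p M ↔ realHom p M = M := by
  show jMat p * M.map star = M * jMat p ↔ jMat p * M.map star * (jMat p)⁻¹ = M
  constructor
  · intro h
    rw [h, mul_assoc, Matrix.mul_nonsing_inv _ (isUnit_det_jMat p), mul_one]
  · intro h
    have := congrArg (· * jMat p) h
    simpa [mul_assoc, Matrix.nonsing_inv_mul _ (isUnit_det_jMat p)] using this

theorem isRealBlk_mul' {M N : BlkMat p} (hM : IsRealBlk p M) (hN : IsRealBlk p N) :
    IsRealBlk p (M * N) := by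
  rw [isRealBlk_iff] at *
  rw [map_mul, hM, hN]

theorem isRealBlk_inv {M : BlkMat p} (hu : IsUnit M) (hM : IsRealBlk p M) :
    IsRealBlk p M⁻¹ := by
  rw [isRealBlk_iff] at *
  have hd := (Matrix.isUnit_iff_isUnit_det _).1 hu
  have h := congrArg (realHom p) (Matrix.mul_nonsing_inv M hd)
  rw [map_mul, hM, map_one] at h
  exact (Matrix.inv_eq_right_inv h).symm

theorem isRealBlk_smul (r : ℝ) {M : BlkMat p} (hM : IsRealBlk p M) : IsRealBlk p (r • M) := by
  rw [isRealBlk_iff] at *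
  rw [map_smul, hM]

/-- The determinant of a real block is real. -/
theorem det_im_eq_zero {M : BlkMat p} (hM : IsRealBlk p M) : M.det.im = 0 := by
  have h := congrArg Matrix.det (hM : jMat p * M.map star = M * jMat p)
  rw [Matrix.det_mul, Matrix.det_mul, mul_comm M.det] at h
  have h2 := mul_left_cancel₀ (isUnit_det_jMat p).ne_zero h
  rw [show M.map star = (starRingEnd ℂ).mapMatrix M from rfl, ← RingHom.map_det] at h2
  exact Complex.conj_eq_iff_im.1 h2

theorem gen_mul_hermitian (p : ℕ × ℕ) (i k : Fin 3) : (opS p i * opT p k).IsHermitian := by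
  have e : opS p i * opT p k = (-(gen p.1 i)ᵀ) ⊗ₖ (-(gen p.2 k)ᵀ) := by
    simp only [opS, opT, ← Matrix.mul_kronecker_mul, one_mul, mul_one]
  have t : ∀ a l, (-(gen a l)ᵀ)ᴴ = -(-(gen a l)ᵀ) := fun a l => by
    rw [Matrix.conjTranspose_neg, show ((gen a l)ᵀ)ᴴ = ((gen a l)ᴴ)ᵀ from rfl, gen_skew,
      Matrix.transpose_neg]
  rw [e, Matrix.IsHermitian, Matrix.conjTranspose_kronecker, t, t]
  ext x y
  simp

theorem ctrlWord_continuous (β : Finset (ℕ × ℕ)) (κ : ℕ × ℕ → ℝ) {m : ℕ}
    (i : Fin m → Fin 3 × Fin 3) : Continuous (ctrlWord β κ i) := by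
  let : NormedAlgebra ℚ (BlkAlg β) := NormedAlgebra.restrictScalars ℚ ℝ (BlkAlg β)
  unfold ctrlWord
  simp only [List.ofFn_eq_map]
  exact continuous_list_prod _ fun k _ =>
    exp_continuous.comp ((continuous_apply k).smul continuous_const)

theorem ctrlWord_apply (β : Finset (ℕ × ℕ)) (κ : ℕ × ℕ → ℝ) {m : ℕ}
    (i : Fin m → Fin 3 × Fin 3) (x : Fin m → ℝ) (q : β) :
    ctrlWord β κ i x q =
      (List.ofFn fun k => exp ((x k * κ q.1) • (opS q.1 (i k).1 * opT q.1 (i k).2))).prod := by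
  let : NormedAlgebra ℚ (BlkMat q.1) := NormedAlgebra.restrictScalars ℚ ℝ (BlkMat q.1)
  let : NormedAlgebra ℚ (BlkAlg β) := NormedAlgebra.restrictScalars ℚ ℝ (BlkAlg β)
  unfold ctrlWord
  rw [Pi.list_prod_apply, List.map_ofFn]
  refine congrArg List.prod (congrArg List.ofFn (funext fun k => ?_))
  show (exp (x k • ctrlGen β κ (i k))) q = _
  rw [show (exp (x k • ctrlGen β κ (i k))) q = exp ((x k • ctrlGen β κ (i k)) q) from
    map_exp (Pi.evalRingHom _ q) (continuous_apply q) _]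
  simp only [Pi.smul_apply, ctrlGen, smul_smul]

theorem contDiff_det : ContDiff ℝ 1 (fun M : Op n => M.det) := by
  simp only [Matrix.det_apply]
  refine ContDiff.sum fun σ _ => ContDiff.const_smul _ (contDiff_prod fun i _ => ?_)
  exact (LinearMap.toContinuousLinearMap
    ((Matrix.entryLinearMap ℝ ℂ (σ i) i) : Op n →ₗ[ℝ] ℂ)).contDiff

/-- A map which is `C¹` on an open set is Lipschitz near every compact subset. -/
theorem exists_lip_near {E F : Type*} [NormedAddCommGroup E] [NormedSpace ℝ E] [ProperSpace E]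
    [NormedAddCommGroup F] [NormedSpace ℝ F] {f : E → F} {U K : Set E} (hU : IsOpen U)
    (hf : ContDiffOn ℝ 1 f U) (hK : IsCompact K) (hKU : K ⊆ U) :
    ∃ r L : ℝ, 0 < r ∧ 0 ≤ L ∧
      ∀ x ∈ K, ∀ y, ‖y - x‖ ≤ r → y ∈ U ∧ ‖f y - f x‖ ≤ L * ‖y - x‖ := by
  obtain ⟨r, hr, hrU⟩ := hK.exists_cthickening_subset_open hU hKU
  have hloc : LocallyLipschitzOn (Metric.cthickening r K) f := fun x hx => by
    obtain ⟨L, t, ht, hL⟩ :=
      (hf.contDiffAt (hU.mem_nhds (hrU hx))).exists_lipschitzOnWith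
    exact ⟨L, t, mem_nhdsWithin_of_mem_nhds ht, hL⟩
  obtain ⟨L, hL⟩ := hloc.exists_lipschitzOnWith_of_compact hK.cthickening
  refine ⟨r, L, hr, L.2, fun x hx y hy => ?_⟩
  have hyk : y ∈ Metric.cthickening r K :=
    Metric.mem_cthickening_of_dist_le y x r K hx (by rwa [dist_eq_norm])
  exact ⟨hrU hyk, hL.norm_sub_le hyk (Metric.self_subset_cthickening K hx)⟩

end Vale.Agent.P225.BlockAux
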