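import Vale.Agent.P225.Riccati.Solve
import Vale.Agent.P225.Group.Elementary

/-!
P225, module E: a gauge segment on truncated points is the lift of its block solutions.
-/

noncomputable section

namespace Vale.Agent.P225

open Set Matrix SU2
open scoped ComplexOrder Matrix.Norms.L2Operator

variable {K : ℕ} {G : Fin 3} {a b : ℝ} {ν : ℝ → ℝ}

/-- A point whose gauge block is complete. -/
def Complete (K : ℕ) (G : Fin 3) (x : PntK K) : Prop :=
  lab x.out (G + 1) + lab x.out (G + 2) ≤ K

instance (K : ℕ) (G : Fin 3) (x : PntK K) : Decidable (Complete K G x) := by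
  unfold Complete; infer_instance

/-- Derivatives of matrix functions can be taken entry by entry. -/
theorem hasDerivAt_of_entries {m : Type*} [Fintype m] [DecidableEq m] {V : ℝ → Op m} {V' : Op m}
    {t : ℝ} (h : ∀ i j, HasDerivAt (fun s => V s i j) (V' i j) t) : HasDerivAt V V' t := by
  have e : ∀ M : Op m, M = ∑ i, ∑ j, M i j • single i j (1 : ℂ) := fun M => by
    conv_lhs => rw [matrix_eq_sum_single M]
    simp [smul_single]
  rw [funext fun s => e (V s), e V']
  exact HasDerivAt.fun_sum fun i _ => HasDerivAt.fun_sum fun j _ => (h i j).smul_const _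

/-- An entry of a derivative. -/
theorem hasDerivAt_entry {m : Type*} [Fintype m] [DecidableEq m] {V : ℝ → Op m} {V' : Op m}
    {t : ℝ} (h : HasDerivAt V V' t) (i j : m) : HasDerivAt (fun s => V s i j) (V' i j) t :=
  (LinearMap.toContinuousLinearMap
    (Matrix.entryLinearMap ℝ ℂ i j : Op m →ₗ[ℝ] ℂ)).hasFDerivAt.comp_hasDerivAt t h

theorem gaugeEntry_congr {M N : ∀ p, BlkMat p} {x y : Pnt}
    (h : M (blkLab G x) = N (blkLab G x)) : gaugeEntry G M x y = gaugeEntry G N x y := by
  rw [gaugeEntry, gaugeEntry, h]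

theorem gaugeEntry_sub {M N : ∀ p, BlkMat p} (x y : Pnt) :
    gaugeEntry G (fun p => M p - N p) x y = gaugeEntry G M x y - gaugeEntry G N x y := by
  unfold gaugeEntry
  split_ifs <;> simp [mul_sub, sub_mul, Finset.sum_sub_distrib]

theorem gaugeEntry_neg {M : ∀ p, BlkMat p} (x y : Pnt) :
    gaugeEntry G (fun p => -M p) x y = -gaugeEntry G M x y := by
  unfold gaugeEntry
  split_ifs <;> simp

theorem gaugeEntry_real_smul (c : ℝ) {M : ∀ p, BlkMat p} (x y : Pnt) :
    gaugeEntry G (fun p => c • M p) x y = c • gaugeEntry G M x y := by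
  unfold gaugeEntry
  split_ifs <;> simp [Complex.real_smul, Finset.mul_sum, mul_assoc, mul_left_comm]

theorem gaugeEntry_hasDerivAt {W : ℝ → ∀ p, BlkMat p} {W' : ∀ p, BlkMat p} {x y : Pnt} {t : ℝ}
    (h : HasDerivAt (fun s => W s (blkLab G x)) (W' (blkLab G x)) t) :
    HasDerivAt (fun s => gaugeEntry G (W s) x y) (gaugeEntry G W' x y) t := by
  unfold gaugeEntry
  split_ifs
  · exact HasDerivAt.fun_sum fun u _ => HasDerivAt.fun_sum fun v _ =>
      ((hasDerivAt_entry h u v).const_mul _).mul_const _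
  · exact hasDerivAt_const t 0

theorem complete_of_same {x y : PntK K} (h : SameBlk G x.out y.out) :
    Complete K G x ↔ Complete K G y := by
  rw [Complete, Complete, h.1, h.2.1]

/-- The indicator of the block of `x`. -/
def blkInd (G : Fin 3) (x : PntK K) : Op (PntK K) :=
  diagonal fun y => if SameBlk G x.out y.out then 1 else 0

theorem blkInd_commute {M : Op (PntK K)}
    (h : ∀ x y : PntK K, ¬SameBlk G x.out y.out → M x y = 0) (x : PntK K) :
    Commute (blkInd G x) M := by
  refine Matrix.ext fun y z => ?_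
  rw [blkInd, diagonal_mul, mul_diagonal]
  by_cases hyz : SameBlk G y.out z.out
  · have e : SameBlk G x.out y.out ↔ SameBlk G x.out z.out :=
      ⟨fun h' => h'.trans hyz, fun h' => h'.trans hyz.symm⟩
    simp only [e, mul_comm]
  · simp [h y z hyz]

theorem blockDiag_of_commute {M : Op (PntK K)} (h : ∀ x : PntK K, Commute (blkInd G x) M)
    (x y : PntK K) (hxy : ¬SameBlk G x.out y.out) : M x y = 0 := by
  have := congrFun₂ (h x).eq x y
  simpa [blkInd, hxy, SameBlk.refl G x.out] using this

/-- Outside its own block the solution vanishes, also for cut blocks. -/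
theorem gauge_riccati_blockDiag {A : ℝ → ∀ p, BlkMat p} (hν : ContinuousOn ν (Icc a b))
    {W : ℝ → Op (PntK K)} (hW : IsRiccati (fun t => gaugeMat K G (A t)) ν W a b)
    (h0 : ∀ x y : PntK K, ¬SameBlk G x.out y.out → W a x y = 0) :
    ∀ t ∈ Icc a b, ∀ x y : PntK K, ¬SameBlk G x.out y.out → W t x y = 0 := fun t ht =>
  blockDiag_of_commute fun x => riccati_commute hν hW
    (fun _ _ => blkInd_commute (fun _ _ h => gaugeEntry_of_not h) x) (blkInd_commute h0 x) t ht

/-- On complete blocks the solution is the lift of the block solutions. -/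
theorem gauge_riccati_lift {A Wb : ℝ → ∀ p, BlkMat p} (hν : ContinuousOn ν (Icc a b))
    {W : ℝ → Op (PntK K)} (hW : IsRiccati (fun t => gaugeMat K G (A t)) ν W a b)
    (h0 : ∀ x y : PntK K, ¬SameBlk G x.out y.out → W a x y = 0)
    (hWb : ∀ p : ℕ × ℕ, p.1 + p.2 ≤ K →
      IsRiccati (fun t => A t p) ν (fun t => Wb t p) a b)
    (hstart : ∀ x y : PntK K, Complete K G x → W a x y = gaugeEntry G (Wb a) x.out y.out) :
    ∀ t ∈ Icc a b, ∀ x y : PntK K, Complete K G x →
      W t x y = gaugeEntry G (Wb t) x.out y.out ∧ W t y x = gaugeEntry G (Wb t) y.out x.out := by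
  intro t ht x y hx
  have hd := gauge_riccati_blockDiag hν hW h0
  let V : ℝ → Op (PntK K) := fun s =>
    of fun u v => if Complete K G u then gaugeEntry G (Wb s) u.out v.out else W s u v
  have hV : IsRiccati (fun t => gaugeMat K G (A t)) ν V a b := by
    intro s hs
    refine hasDerivAt_of_entries fun u v => ?_
    by_cases hu : Complete K G u
    · have h := gaugeEntry_hasDerivAt (G := G) (x := u.out) (y := v.out) (W := Wb)
        (W' := fun p => A s p - Wb s p * Wb s p - ν s • Wb s p) (hWb (blkLab G u.out) hu s hs)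
      rw [gaugeEntry_sub, gaugeEntry_sub, gaugeEntry_real_smul, ← gaugeEntry_mul (K := K) u.out v.out hu] at h
      simp only [V, of_apply, hu, if_true]
      refine h.congr_deriv ?_
      simp only [Matrix.sub_apply, Matrix.smul_apply, Matrix.mul_apply, of_apply, hu, if_true,
        gaugeMat]
      congr 2
      refine Finset.sum_congr rfl fun z _ => ?_
      by_cases hz : SameBlk G u.out z.out
      · rw [if_pos ((complete_of_same hz).1 hu)]
      · rw [gaugeEntry_of_not hz, zero_mul, zero_mul]
    · simp only [V, of_apply, hu, if_false]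
      refine (hasDerivAt_entry (hW s hs) u v).congr_deriv ?_
      simp only [Matrix.sub_apply, Matrix.smul_apply, Matrix.mul_apply, of_apply, hu, if_false]
      congr 2
      refine Finset.sum_congr rfl fun z _ => ?_
      by_cases hz : SameBlk G u.out z.out
      · rw [if_neg fun h => hu ((complete_of_same hz).2 h)]
      · rw [hd s hs u z hz, zero_mul, zero_mul]
  have hVa : W a = V a := by
    refine Matrix.ext fun u v => ?_
    by_cases hu : Complete K G u <;> simp [V, hu, hstart]
  have key : ∀ u v : PntK K, Complete K G u → W t u v = gaugeEntry G (Wb t) u.out v.out :=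
    fun u v hu => by rw [riccati_unique hν hW hV hVa ht]; simp [V, hu]
  refine ⟨key x y hx, ?_⟩
  by_cases h : SameBlk G y.out x.out
  · exact key y x ((complete_of_same h).2 hx)
  · rw [hd t ht y x h, gaugeEntry_of_not h]

/-- The same for backward maps. -/
theorem gauge_back_lift {Wb Rb : ℝ → ∀ p, BlkMat p} {W R : ℝ → Op (PntK K)}
    (hWc : ContinuousOn W (Icc a b))
    (hdiag : ∀ t ∈ Icc a b, ∀ x y : PntK K, ¬SameBlk G x.out y.out → W t x y = 0)
    (hW : ∀ t ∈ Icc a b, ∀ x y : PntK K, Complete K G x →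
      W t x y = gaugeEntry G (Wb t) x.out y.out)
    (hR : IsBack W R a b)
    (hRb : ∀ p : ℕ × ℕ, p.1 + p.2 ≤ K → IsBack (fun t => Wb t p) (fun t => Rb t p) a b) :
    ∀ t ∈ Icc a b, ∀ x y : PntK K,
      (¬SameBlk G x.out y.out → R t x y = 0) ∧
      (Complete K G x → R t x y = gaugeEntry G (Rb t) x.out y.out) := by
  intro t ht x y
  let V : ℝ → Op (PntK K) := fun s => of fun u v =>
    if SameBlk G u.out v.out then
      (if Complete K G u then gaugeEntry G (Rb s) u.out v.out else R s u v) else 0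
  have hV : ∀ s ∈ Icc a b, HasDerivAt V (-(V s * W s)) s := by
    intro s hs
    refine hasDerivAt_of_entries fun u v => ?_
    rw [Matrix.neg_apply, Matrix.mul_apply]
    by_cases huv : SameBlk G u.out v.out
    · by_cases hu : Complete K G u
      · have h := gaugeEntry_hasDerivAt (G := G) (x := u.out) (y := v.out) (W := Rb)
          (W' := fun p => -(Rb s p * Wb s p)) ((hRb (blkLab G u.out) hu).2 s hs)
        rw [gaugeEntry_neg, ← gaugeEntry_mul (K := K) u.out v.out hu] at h
        simp only [V, of_apply, huv, hu, if_true]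
        refine h.congr_deriv (congrArg Neg.neg (Finset.sum_congr rfl fun z _ => ?_))
        by_cases hz : SameBlk G u.out z.out
        · rw [if_pos hz, hW s hs z v ((complete_of_same hz).1 hu)]
        · rw [if_neg hz, gaugeEntry_of_not hz, zero_mul, zero_mul]
      · simp only [V, of_apply, huv, hu, if_true, if_false]
        refine (hasDerivAt_entry (hR.2 s hs) u v).congr_deriv ?_
        rw [Matrix.neg_apply, Matrix.mul_apply]
        refine congrArg Neg.neg (Finset.sum_congr rfl fun z _ => ?_)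
        by_cases hz : SameBlk G u.out z.out
        · rw [if_pos hz]
        · rw [if_neg hz, hdiag s hs z v fun h => hz (huv.trans h.symm), mul_zero, mul_zero]
    · simp only [V, of_apply, huv, if_false]
      refine (hasDerivAt_const s (0 : ℂ)).congr_deriv (neg_eq_zero.2 ?_).symm
      refine Finset.sum_eq_zero fun z _ => ?_
      by_cases hz : SameBlk G u.out z.out
      · rw [hdiag s hs z v fun h => huv (hz.trans h), mul_zero]
      · rw [if_neg hz, zero_mul]
  have hV0 : V a = 1 := by
    refine Matrix.ext fun u v => ?_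
    by_cases huv : SameBlk G u.out v.out
    · by_cases hu : Complete K G u
      · simp only [V, of_apply, huv, hu, if_true]
        rw [gaugeEntry_congr (N := fun _ => 1) ((hRb (blkLab G u.out) hu).1), gaugeEntry_one, Matrix.one_apply]
        exact if_congr PntK.out_injective.eq_iff rfl rfl
      · simp [V, huv, hu, hR.1]
    · simp only [V, of_apply, huv, if_false]
      rw [Matrix.one_apply_ne]
      rintro rfl
      exact huv (SameBlk.refl G u.out)
  have hRV : R t = V t := by
    refine sub_eq_zero.1 (eq_zero_of_deriv_le (f := fun s => R s - V s)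
      (f' := fun s => -((R s - V s) * W s)) (K := fun s => ‖W s‖) (fun s hs => ?_) hWc.norm
      (fun s _ => ?_) (by simp [hR.1, hV0]) t ht)
    · refine ((hR.2 s hs).sub (hV s hs)).congr_deriv ?_
      noncomm_ring
    · rw [norm_neg, mul_comm (‖W s‖)]
      exact norm_mul_le _ _
  refine ⟨fun h => ?_, fun h => ?_⟩
  · simp [hRV, V, h]
  · by_cases hxy : SameBlk G x.out y.out
    · simp [hRV, V, h, hxy]
    · simp [hRV, V, hxy, gaugeEntry_of_not hxy]

/-- A free segment: an Ad-invariant coefficient keeps diagonal solutions diagonal, pointwise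
scalar. -/
theorem free_riccati_diag {P : ℝ → Fin 3 → ℝ} (hν : ContinuousOn ν (Icc a b))
    {W : ℝ → Op (PntK K)} {w : PntK K → ℝ → ℝ}
    (hW : IsRiccati (fun t => gaugeMat K G fun p => linkOp (adQ G (P t)) p) ν W a b)
    (hw : ∀ x, ∀ t ∈ Icc a b, HasDerivAt (w x)
      ((∑ k, P t k * cas (lab x.out k)) - w x t ^ 2 - ν t * w x t) t)
    (h0 : W a = diagonal fun x => (w x a : ℂ)) :
    ∀ t ∈ Icc a b, W t = diagonal fun x => (w x t : ℂ) := by
  have hV : IsRiccati (fun t => gaugeMat K G fun p => linkOp (adQ G (P t)) p) ν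
      (fun t => diagonal fun x => (w x t : ℂ)) a b := by
    intro s hs
    refine hasDerivAt_of_entries fun u v => ?_
    simp only [diagonal_mul_diagonal, Matrix.sub_apply, Matrix.smul_apply, gaugeMat,
      gaugeEntry_adQ, PntK.out_injective.eq_iff, diagonal_apply]
    by_cases huv : u = v
    · subst huv
      simp only [if_true]
      refine (hw u s hs).ofReal_comp.congr_deriv ?_
      simp only [Complex.real_smul]
      push_cast
      ring
    · simp [huv, hasDerivAt_const]
  exact fun t ht => riccati_unique hν hW hV h0 ht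

/-- The block matrix with value `f v` on the middle label `v`. -/
def diagBlk (p : ℕ × ℕ) (f : ℕ → ℝ) : BlkMat p :=
  ∑ x : BlkIdx p, (f (x.1.1 : ℕ) : ℂ) • unitMat p x x

theorem diagBlk_mulVec (p : ℕ × ℕ) (f : ℕ → ℝ) (x : BlkIdx p) :
    diagBlk p f *ᵥ blkVec p x = (f (x.1.1 : ℕ) : ℂ) • blkVec p x := by
  rw [diagBlk, Matrix.sum_mulVec, Finset.sum_eq_single x]
  · rw [smul_mulVec, unitMat, vecMulVec_mulVec, blkVec_orthonormal, if_pos rfl]
    simp
  · intro y _ hy
    rw [smul_mulVec, unitMat, vecMulVec_mulVec, blkVec_orthonormal, if_neg hy]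
    simp
  · simp

theorem blk_ext {p : ℕ × ℕ} {A B : BlkMat p}
    (h : ∀ x, A *ᵥ blkVec p x = B *ᵥ blkVec p x) : A = B := by
  rw [← Matrix.mul_one A, ← Matrix.mul_one B, ← blkVec_complete, Finset.mul_sum, Finset.mul_sum]
  exact Finset.sum_congr rfl fun x _ => by rw [mul_vecMulVec, mul_vecMulVec, h]

/-- The coupling into the middle label `v`. -/
def colMat (p : ℕ × ℕ) (v : ℕ) : Matrix (Fin (p.1 + 1) × Fin (p.2 + 1)) (Fin (v + 1)) ℂ :=
  fun u l => coupN (blkTriple p v) 0 u.1 u.2 l

theorem colMat_tess (p : ℕ × ℕ) (x : BlkIdx p) :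
    blkVec p x = colMat p (x.1.1 : ℕ) *ᵥ fun l => tess (x.1.1 : ℕ) l x.2 := rfl

theorem blkTriple_ok (p : ℕ × ℕ) (x : BlkIdx p) : LblOK (blkTriple p (x.1.1 : ℕ)) := by
  have h1 : (x.1.1 : ℕ) < p.1 + p.2 + 1 := x.1.1.isLt
  obtain ⟨h2, h3, h4⟩ := x.1.2
  rw [lblOK_iff _ 0]
  rw [Nat.even_iff] at h4 ⊢
  simp only [blkTriple, show (0 : Fin 3) + 1 = 1 from rfl, show (0 : Fin 3) + 2 = 2 from rfl,
    Matrix.cons_val_zero, Matrix.cons_val_one, Matrix.cons_val]
  omega

theorem linkOp_adQ_colMat (P : Fin 3 → ℝ) (p : ℕ × ℕ) (v : ℕ)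
    (hok : LblOK (blkTriple p v)) :
    linkOp (adQ G P) p * colMat p v =
      ((P (G + 1) * cas p.1 + P G * cas v + P (G + 2) * cas p.2 : ℝ) : ℂ) • colMat p v := by
  set C := colMat p v with hC
  have hsum : ∀ k, (opS p k + opT p k) * C = C * gen v k := fun k =>
    blk_sum_mul (G := 0) hok rfl k
  have hsq : (∑ k, (opS p k + opT p k) * (opS p k + opT p k)) * C = (-cas v : ℂ) • C := by
    rw [Matrix.sum_mul]
    simp only [Matrix.mul_assoc, hsum]
    simp only [← Matrix.mul_assoc, hsum]
    simp only [Matrix.mul_assoc, ← Matrix.mul_sum, gen_casimir, Matrix.mul_smul, Matrix.mul_one]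
  have hlink : linkOp (adQ G P) p = -((P (G + 1) : ℂ) • ∑ k, opS p k * opS p k +
      (P (G + 2) : ℂ) • ∑ k, opT p k * opT p k +
      (P G : ℂ) • ∑ k, (opS p k + opT p k) * (opS p k + opT p k)) := by
    simp only [linkOp, Fintype.sum_prod_type, Fintype.sum_bool, adQ, apply_ite ((↑) : ℝ → ℂ),
      Complex.ofReal_zero, ite_smul, zero_smul, Finset.sum_ite_eq, Finset.mem_univ, opX, reduceCtorEq,
      ↓reduceIte, Complex.ofReal_add, add_smul, Finset.sum_add_distrib, Finset.smul_sum, mul_add,
      add_mul, smul_add]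
    simp
    abel
  rw [hlink, opS_casimir, opT_casimir, Matrix.neg_mul, Matrix.add_mul, Matrix.add_mul,
    Matrix.smul_mul, Matrix.smul_mul, Matrix.smul_mul, Matrix.smul_mul, Matrix.smul_mul]
  simp only [Matrix.one_mul, hsq]
  push_cast
  module

theorem linkOp_adQ_diagBlk (P : Fin 3 → ℝ) (p : ℕ × ℕ) :
    linkOp (adQ G P) p =
      diagBlk p fun v => P (G + 1) * cas p.1 + P G * cas v + P (G + 2) * cas p.2 :=
  blk_ext fun x => by
    rw [diagBlk_mulVec, colMat_tess, Matrix.mulVec_mulVec,
      linkOp_adQ_colMat P p _ (blkTriple_ok p x), Matrix.smul_mulVec]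

theorem diagBlk_real (p : ℕ × ℕ) (f : ℕ → ℝ) : IsRealBlk p (diagBlk p f) := by
  set J := Matrix.kroneckerMap (· * ·) (conjJ p.1) (conjJ p.2) with hJ
  have h : ∀ x, (J * (diagBlk p f).map star) *ᵥ star (blkVec p x) =
      (diagBlk p f * J) *ᵥ star (blkVec p x) := fun x => by
    have e : (diagBlk p f).map star *ᵥ star (blkVec p x) =
        (f (x.1.1 : ℕ) : ℂ) • star (blkVec p x) := by
      have e1 := congrArg star (diagBlk_mulVec p f x)
      rw [star_smul, Complex.star_def, Complex.conj_ofReal] at e1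
      rw [← e1]
      funext u
      simp [mulVec, dotProduct, star_sum]
    rw [← mulVec_mulVec, ← mulVec_mulVec, e, mulVec_smul, blkVec_real, mulVec_smul,
      diagBlk_mulVec, smul_comm]
    rfl
  have h' : (J * (diagBlk p f).map star).map star = (diagBlk p f * J).map star :=
    blk_ext fun x => by
      funext u
      have := congrArg star (congrFun (h x) u)
      simpa [mulVec, dotProduct, star_sum] using this
  exact Matrix.ext fun u v => star_injective (congrFun₂ h' u v)

theorem diagBlk_posSemidef {p : ℕ × ℕ} {f : ℕ → ℝ}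
    (h : ∀ x : BlkIdx p, 0 ≤ f (x.1.1 : ℕ)) : (diagBlk p f).PosSemidef :=
  Matrix.posSemidef_sum _ fun x _ =>
    (Matrix.posSemidef_vecMulVec_self_star _).smul (Complex.zero_le_real.2 (h x))

theorem diagBlk_mul (p : ℕ × ℕ) (f g : ℕ → ℝ) :
    diagBlk p f * diagBlk p g = diagBlk p fun v => f v * g v :=
  blk_ext fun x => by
    rw [← mulVec_mulVec, diagBlk_mulVec, mulVec_smul, diagBlk_mulVec, diagBlk_mulVec, smul_smul,
      Complex.ofReal_mul, mul_comm]

theorem diagBlk_colMat (p : ℕ × ℕ) (f : ℕ → ℝ) (v : ℕ) (hok : LblOK (blkTriple p v)) :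
    diagBlk p f * colMat p v = (f v : ℂ) • colMat p v := by
  have hv : v < p.1 + p.2 + 1 ∧ p.1 ≤ v + p.2 ∧ p.2 ≤ v + p.1 ∧ Even (v + p.1 + p.2) := by
    rw [lblOK_iff _ 0] at hok
    simp only [blkTriple, show (0 : Fin 3) + 1 = 1 from rfl, show (0 : Fin 3) + 2 = 2 from rfl,
      Matrix.cons_val_zero, Matrix.cons_val_one, Matrix.cons_val] at hok
    refine ⟨?_, ?_, ?_, ?_⟩
    · omega
    · omega
    · omega
    · exact hok.1
  obtain ⟨h1, h2⟩ := hv
  have h : diagBlk p f * (colMat p v * tess v) = (f v : ℂ) • (colMat p v * tess v) :=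
    Matrix.ext fun u i => congrFun (diagBlk_mulVec p f ⟨⟨⟨v, h1⟩, h2⟩, i⟩) u
  have := congrArg (· * (tess v)ᴴ) h
  simpa only [Matrix.smul_mul, Matrix.mul_assoc, (tess_unitary v).2, Matrix.mul_one] using this

theorem gaugeEntry_diagBlk (F : ℕ × ℕ → ℕ → ℝ) (x y : Pnt) :
    gaugeEntry G (fun p => diagBlk p (F p)) x y =
      if x = y then ((F (blkLab G x) (lab x G) : ℝ) : ℂ) else 0 := by
  by_cases h : SameBlk G x y
  swap
  · rw [gaugeEntry_of_not h, if_neg]
    rintro rfl
    exact h (SameBlk.refl G x)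
  set p := blkLab G x with hp
  have hy : blkLab G y = p := h.blkLab
  have hC : cmat G p (lab y) = colMat p (lab y G) := by
    funext u l
    have hg := blkVec_gauge y.1.2 G (u.1 : ℕ) u.2 l
    rw [show (lab y (G + 1), lab y (G + 2)) = p from hy] at hg
    exact hg
  have hok : LblOK (blkTriple p (lab y G)) := by
    have h0 := (lblOK_iff _ G).1 y.1.2
    have e1 : lab y (G + 1) = p.1 := congrArg Prod.fst hy
    have e2 : lab y (G + 2) = p.2 := congrArg Prod.snd hy
    simp only [lab] at e1 e2
    rw [e1, e2] at h0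
    rw [lblOK_iff _ 0]
    simpa only [blkTriple, show (0 : Fin 3) + 1 = 1 from rfl, show (0 : Fin 3) + 2 = 2 from rfl,
      Matrix.cons_val_zero, Matrix.cons_val_one, Matrix.cons_val] using h0
  have hD : diagBlk p (F p) * cmat G p (lab y) = (F p (lab y G) : ℂ) • cmat G p (lab y) := by
    rw [hC]
    exact diagBlk_colMat p (F p) _ hok
  rw [gaugeEntry_of_same (p := p) rfl h, Matrix.mul_assoc, hD, Matrix.mul_smul,
    Matrix.smul_apply, smul_eq_mul, ← Matrix.mul_one (cmat G p (lab x))ᴴ,
    ← gaugeEntry_of_same (M := fun _ => 1) (p := p) rfl h, gaugeEntry_one, mul_ite, mul_one,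
    mul_zero]
  by_cases e : x = y
  · subst e
    rfl
  · rw [if_neg e, if_neg e]

end Vale.Agent.P225
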